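import Mathlib

/-!
# GCD graphs: masses, frozen configurations and elementary inequalities
-/

open Finset

namespace Vale.Agent.P028.Gcd

noncomputable section

/-- Weighted mass of a bipartite graph. -/
def mass (μ ν : ℕ → ℝ) (u : ℕ → ℕ → ℝ) (V W : Finset ℕ) : ℝ :=
  ∑ v ∈ V, ∑ w ∈ W, μ v * ν w * u v w

/-- Total mass of a set. -/
def tot (μ : ℕ → ℝ) (V : Finset ℕ) : ℝ := ∑ v ∈ V, μ v

/-- Exponent of a prime. -/
abbrev ex (p n : ℕ) : ℕ := n.factorization p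

/-- Product weight over the primes of `S` at which the exponents differ. -/
def pw (σ : ℕ → ℝ) (S : Finset ℕ) (v w : ℕ) : ℝ :=
  ∏ p ∈ S, if ex p v = ex p w then 1 else 1 + σ p

/-- A configuration: outside `U` the exponents are pinned (`i ≠ j`) or frozen (`i = j`). -/
def Config (u : ℕ → ℕ → ℝ) (U : Finset ℕ) (i j : ℕ → ℕ) (V W : Finset ℕ) : Prop :=
  ∀ p, p ∉ U →
    (i p ≠ j p → (∀ v ∈ V, ex p v = i p) ∧ (∀ w ∈ W, ex p w = j p)) ∧
    (i p = j p → ∀ v ∈ V, ∀ w ∈ W, u v w ≠ 0 → ex p v = i p ∨ ex p w = i p)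

/-- The bias factor of a configuration. -/
def bias (r : ℕ → ℝ) (S : Finset ℕ) (i j : ℕ → ℕ) : ℝ :=
  ∏ p ∈ S, r p ^ Nat.dist (i p) (j p)

/-- The degree condition of a minimal counterexample. -/
def Rich (b : ℝ) (μ ν : ℕ → ℝ) (u : ℕ → ℕ → ℝ) (V W : Finset ℕ) : Prop :=
  ∀ S ⊆ V, b * tot μ S * mass μ ν u V W ≤ tot μ V * mass μ ν u S W

variable {μ ν : ℕ → ℝ} {u : ℕ → ℕ → ℝ}

lemma mass_flip (V W : Finset ℕ) :
    mass ν μ (fun w v => u v w) W V = mass μ ν u V W := by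
  unfold mass
  rw [Finset.sum_comm]
  exact sum_congr rfl fun v _ => sum_congr rfl fun w _ => by ring

lemma mass_nonneg (hμ : ∀ v, 0 ≤ μ v) (hν : ∀ v, 0 ≤ ν v) (hu : ∀ v w, 0 ≤ u v w)
    (V W : Finset ℕ) : 0 ≤ mass μ ν u V W :=
  sum_nonneg fun _ _ => sum_nonneg fun _ _ => mul_nonneg (mul_nonneg (hμ _) (hν _)) (hu _ _)

lemma tot_nonneg (hμ : ∀ v, 0 ≤ μ v) (V : Finset ℕ) : 0 ≤ tot μ V :=
  sum_nonneg fun _ _ => hμ _

lemma mass_eq_zero_of_tot (hμ : ∀ v, 0 ≤ μ v) (V W : Finset ℕ) (h : tot μ V = 0) :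
    mass μ ν u V W = 0 := by
  refine sum_eq_zero fun v hv => sum_eq_zero fun w _ => ?_
  rw [(sum_eq_zero_iff_of_nonneg fun x _ => hμ x).1 h v hv, zero_mul, zero_mul]

lemma mass_sdiff (S V W : Finset ℕ) (hS : S ⊆ V) :
    mass μ ν u (V \ S) W + mass μ ν u S W = mass μ ν u V W :=
  sum_sdiff hS

lemma tot_sdiff (S V : Finset ℕ) (hS : S ⊆ V) : tot μ (V \ S) + tot μ S = tot μ V :=
  sum_sdiff hS

lemma pw_nonneg {σ : ℕ → ℝ} (hσ : ∀ p, 0 ≤ σ p) (S : Finset ℕ) (v w : ℕ) : 0 ≤ pw σ S v w := by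
  refine prod_nonneg fun p _ => ?_
  split_ifs
  · exact zero_le_one
  · linarith [hσ p]

lemma pw_comm (σ : ℕ → ℝ) (S : Finset ℕ) (v w : ℕ) : pw σ S w v = pw σ S v w :=
  prod_congr rfl fun p _ => by simp [eq_comm]

/-- Sums of powers at least one. -/
lemma sum_rpow_le {ι : Type*} (s : Finset ι) (x : ι → ℝ) (hx : ∀ a ∈ s, 0 ≤ x a) {q : ℝ}
    (hq : 1 ≤ q) : ∑ a ∈ s, x a ^ q ≤ (∑ a ∈ s, x a) ^ q := by
  set T := ∑ a ∈ s, x a with hT
  have hT0 : 0 ≤ T := sum_nonneg hx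
  calc ∑ a ∈ s, x a ^ q ≤ ∑ a ∈ s, x a * T ^ (q - 1) := by
        refine sum_le_sum fun a ha => ?_
        rw [show x a ^ q = x a * x a ^ (q - 1) by
          rw [mul_comm, ← Real.rpow_add_one' (hx a ha) (by linarith)]; ring_nf]
        exact mul_le_mul_of_nonneg_left (Real.rpow_le_rpow (hx a ha)
          (single_le_sum hx ha) (by linarith)) (hx a ha)
    _ = T ^ q := by
        rw [← sum_mul, ← hT, mul_comm, ← Real.rpow_add_one' hT0 (by linarith)]; ring_nf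

/-- The Schur test. -/
lemma schur {ι : Type*} (I J : Finset ι) (k : ι → ι → ℝ) (x y : ι → ℝ) (K : ℝ)
    (hk : ∀ i j, 0 ≤ k i j) (hrow : ∀ i ∈ I, ∑ j ∈ J, k i j ≤ K)
    (hcol : ∀ j ∈ J, ∑ i ∈ I, k i j ≤ K) :
    ∑ i ∈ I, ∑ j ∈ J, k i j * (x i * y j) ≤
      K * ((∑ i ∈ I, x i ^ 2) + ∑ j ∈ J, y j ^ 2) / 2 := by
  have h1 : ∑ i ∈ I, ∑ j ∈ J, k i j * x i ^ 2 ≤ K * ∑ i ∈ I, x i ^ 2 := by
    rw [mul_sum]
    refine sum_le_sum fun i hi => ?_
    rw [← sum_mul]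
    exact mul_le_mul_of_nonneg_right (hrow i hi) (sq_nonneg _)
  have h2 : ∑ i ∈ I, ∑ j ∈ J, k i j * y j ^ 2 ≤ K * ∑ j ∈ J, y j ^ 2 := by
    rw [sum_comm, mul_sum]
    refine sum_le_sum fun j hj => ?_
    rw [← sum_mul]
    exact mul_le_mul_of_nonneg_right (hcol j hj) (sq_nonneg _)
  have h3 : ∑ i ∈ I, ∑ j ∈ J, k i j * (x i * y j) ≤
      ∑ i ∈ I, ∑ j ∈ J, (k i j * x i ^ 2 + k i j * y j ^ 2) / 2 :=
    sum_le_sum fun i _ => sum_le_sum fun j _ => by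
      nlinarith [mul_nonneg (hk i j) (sq_nonneg (x i - y j))]
  simp only [← sum_div, sum_add_distrib] at h3
  linarith

lemma geom_range_le {r : ℝ} (hr : 0 ≤ r) (hr1 : r < 1) (n : ℕ) :
    ∑ d ∈ range n, r ^ d ≤ 1 / (1 - r) := by
  rw [geom_sum_eq hr1.ne, show (r ^ n - 1) / (r - 1) = (1 - r ^ n) / (1 - r) by
    rw [← neg_div_neg_eq]; ring_nf]
  exact div_le_div_of_nonneg_right (by linarith [pow_nonneg hr n]) (by linarith)

/-- Geometric row sum away from the diagonal. -/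
lemma geom_row_ne {r : ℝ} (hr : 0 ≤ r) (hr1 : r < 1) (I : Finset ℕ) (i : ℕ) :
    ∑ j ∈ I, (if i = j then 0 else r ^ Nat.dist i j) ≤ 2 * r / (1 - r) := by
  obtain ⟨N, hN⟩ := I.bddAbove
  have half : ∀ P : ℕ → Prop, ∀ [DecidablePred P], (∀ j, P j → i ≠ j) →
      (∀ j k, P j → P k → Nat.dist i j = Nat.dist i k → j = k) →
      ∑ j ∈ I.filter P, r ^ Nat.dist i j ≤ r / (1 - r) := by
    intro P _ hne hinj
    have hd : ∀ j ∈ I.filter P, 1 ≤ Nat.dist i j := fun j hj =>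
      Nat.dist_pos_of_ne (hne j (mem_filter.1 hj).2)
    calc ∑ j ∈ I.filter P, r ^ Nat.dist i j
        = r * ∑ j ∈ I.filter P, r ^ (Nat.dist i j - 1) := by
          rw [mul_sum]
          refine sum_congr rfl fun j hj => ?_
          rw [← pow_succ', Nat.sub_add_cancel (hd j hj)]
      _ = r * ∑ d ∈ (I.filter P).image (fun j => Nat.dist i j - 1), r ^ d := by
          rw [sum_image]
          intro x hx y hy hxy
          exact hinj x y (mem_filter.1 hx).2 (mem_filter.1 hy).2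
            (by have := hd x hx; have := hd y hy; simp only at hxy; omega)
      _ ≤ r * ∑ d ∈ range (i + N + 1), r ^ d := by
          refine mul_le_mul_of_nonneg_left (sum_le_sum_of_subset_of_nonneg ?_
            (fun d _ _ => pow_nonneg hr d)) hr
          intro d hd'
          obtain ⟨j, hj, rfl⟩ := mem_image.1 hd'
          have := hN (mem_filter.1 hj).1
          rw [mem_range]
          unfold Nat.dist
          omega
      _ ≤ r * (1 / (1 - r)) := mul_le_mul_of_nonneg_left (geom_range_le hr hr1 _) hr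
      _ = r / (1 - r) := by ring
  have h1 := half (fun j => i < j) (fun j h => Nat.ne_of_lt h) (fun j k h h' => by
    unfold Nat.dist; omega)
  have h2 := half (fun j => j < i) (fun j h => (Nat.ne_of_lt h).symm) (fun j k h h' => by
    unfold Nat.dist; omega)
  have hs : ∑ j ∈ I, (if i = j then 0 else r ^ Nat.dist i j) =
      (∑ j ∈ I.filter (fun j => i < j), r ^ Nat.dist i j)
        + ∑ j ∈ I.filter (fun j => j < i), r ^ Nat.dist i j := by
    rw [sum_filter, sum_filter, ← sum_add_distrib]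
    refine sum_congr rfl fun j _ => ?_
    rcases lt_trichotomy i j with h | h | h
    · simp [h, h.ne, h.not_gt]
    · simp [h]
    · simp [h, h.ne', h.not_gt]
  rw [hs]
  calc _ ≤ r / (1 - r) + r / (1 - r) := add_le_add h1 h2
    _ = _ := by ring

lemma geom_row {r : ℝ} (hr : 0 ≤ r) (hr1 : r < 1) (I : Finset ℕ) (i : ℕ) :
    ∑ j ∈ I, r ^ Nat.dist i j ≤ (1 + r) / (1 - r) := by
  have h : ∑ j ∈ I, r ^ Nat.dist i j ≤
      ∑ j ∈ I, ((if i = j then 0 else r ^ Nat.dist i j) + if i = j then 1 else 0) := by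
    refine sum_le_sum fun j _ => ?_
    split_ifs with h <;> simp [h, Nat.dist_self]
  rw [sum_add_distrib] at h
  have h1 : ∑ j ∈ I, (if i = j then (1 : ℝ) else 0) ≤ 1 := by
    rw [sum_ite_eq]; split_ifs <;> norm_num
  have h2 := geom_row_ne hr hr1 I i
  have h3 : 2 * r / (1 - r) + 1 = (1 + r) / (1 - r) := by
    field_simp [show (1 : ℝ) - r ≠ 0 by linarith]; ring
  linarith

/-- A weighted Schur bound for sub-probability vectors. -/
lemma schur_rpow {r : ℝ} (I J : Finset ℕ) (k : ℕ → ℕ → ℝ) (α β : ℕ → ℝ) (b A B : ℝ)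
    (hk : ∀ i j, 0 ≤ k i j) (hrow : ∀ i ∈ I, ∑ j ∈ J, k i j ≤ r)
    (hcol : ∀ j ∈ J, ∑ i ∈ I, k i j ≤ r) (hα : ∀ i, 0 ≤ α i) (hβ : ∀ i, 0 ≤ β i)
    (hb : 1 ≤ 2 * b) (hr : 0 ≤ r) (hA : ∑ i ∈ I, α i ≤ A) (hB : ∑ j ∈ J, β j ≤ B) :
    ∑ i ∈ I, ∑ j ∈ J, k i j * (α i ^ b * β j ^ b) ≤ r * (A ^ (2 * b) + B ^ (2 * b)) / 2 := by
  refine (schur I J k _ _ r hk hrow hcol).trans ?_
  have e : ∀ x : ℝ, 0 ≤ x → (x ^ b) ^ 2 = x ^ (2 * b) := fun x hx => by
    rw [← Real.rpow_natCast (x ^ b) 2, ← Real.rpow_mul hx]; congr 1; push_cast; ring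
  simp only [e _ (hα _), e _ (hβ _)]
  have h1 : ∑ i ∈ I, α i ^ (2 * b) ≤ A ^ (2 * b) :=
    (sum_rpow_le I α (fun i _ => hα i) hb).trans
      (Real.rpow_le_rpow (sum_nonneg fun i _ => hα i) hA (by linarith))
  have h2 : ∑ j ∈ J, β j ^ (2 * b) ≤ B ^ (2 * b) :=
    (sum_rpow_le J β (fun i _ => hβ i) hb).trans
      (Real.rpow_le_rpow (sum_nonneg fun i _ => hβ i) hB (by linarith))
  have := mul_le_mul_of_nonneg_left (add_le_add h1 h2) hr
  linarith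

end

end Vale.Agent.P028.Gcd
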