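import Vale.Agent.P028.Gcd.Basic

/-!
# The numerical content of committing a large prime
-/

open Finset

namespace Vale.Agent.P028.Gcd

noncomputable section

/-- A side that is nearly full is very full. -/
lemma small_side {R A ε : ℝ} (hε : 0 < ε) (hε' : ε ≤ 1 / 4) (hR : 0 ≤ R) (hA : 0 ≤ A)
    (hAR : A ≤ R / ε) (h2 : 2 * (R / ε) ^ (2 * ε) ≤ (1 / 2 + ε) / 2)
    (h : (1 / 2 + ε) * A ≤ R * A ^ (1 / 2 + ε) + 2 * A ^ (2 * (1 / 2 + ε))) :
    A ≤ (4 * R) ^ (1 / (1 / 2 - ε)) := by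
  rcases hA.eq_or_lt with h0 | h0
  · rw [← h0]; positivity
  have e1 : A ^ (2 * (1 / 2 + ε)) = A * A ^ (2 * ε) := by
    rw [show 2 * (1 / 2 + ε) = 1 + 2 * ε by ring, Real.rpow_add h0, Real.rpow_one]
  have e2 : A = A ^ (1 / 2 + ε) * A ^ (1 / 2 - ε) := by
    rw [← Real.rpow_add h0]; norm_num
  have h3 : A ^ (2 * ε) ≤ (R / ε) ^ (2 * ε) := Real.rpow_le_rpow hA hAR (by linarith)
  have h4 : (1 / 2 + ε) / 2 * A ≤ R * A ^ (1 / 2 + ε) := by
    rw [e1] at h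
    nlinarith [mul_le_mul_of_nonneg_left h3 hA]
  have hpos := Real.rpow_pos_of_pos h0 (1 / 2 + ε)
  have h5 : A ^ (1 / 2 - ε) ≤ 4 * R := by
    have : (1 / 2 + ε) / 2 * A ^ (1 / 2 - ε) ≤ R := by
      refine le_of_mul_le_mul_left ?_ hpos
      calc A ^ (1 / 2 + ε) * ((1 / 2 + ε) / 2 * A ^ (1 / 2 - ε))
          = (1 / 2 + ε) / 2 * (A ^ (1 / 2 + ε) * A ^ (1 / 2 - ε)) := by ring
        _ ≤ _ := by rw [← e2]; linarith
    nlinarith [Real.rpow_nonneg hA (1 / 2 - ε)]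
  calc A = (A ^ (1 / 2 - ε)) ^ (1 / (1 / 2 - ε)) := by
        rw [← Real.rpow_mul hA, mul_one_div_cancel (by linarith), Real.rpow_one]
    _ ≤ _ := Real.rpow_le_rpow (Real.rpow_nonneg hA _) h5 (one_div_nonneg.2 (by linarith))

/-- The parameters of a prime at which commitment is free. -/
structure BigPar (ε r σ : ℝ) : Prop where
  pos : 0 < ε
  le : ε ≤ 1 / 4
  r0 : 0 ≤ r
  r1 : r < 1
  R1 : 2 * r / (1 - r) < 1
  num1 : 2 * (2 * r / (1 - r) / ε) ^ (2 * ε) ≤ (1 / 2 + ε) / 2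
  num2 : ((4 * (2 * r / (1 - r))) ^ (1 / (1 / 2 - ε))) ^ (2 * ε) ≤ 1 / 16
  num3 : 8 * ((4 * (2 * r / (1 - r))) ^ (1 / (1 / 2 - ε))) ^ (2 * ε) ≤ σ

variable {ε r σ : ℝ} {I : Finset ℕ} {X : ℕ → ℕ → ℝ} {α β : ℕ → ℝ} {T : ℝ}

lemma offdiag_le (hp : BigPar ε r σ) (hT0 : 0 ≤ T) (hα0 : ∀ a, 0 ≤ α a) (hβ0 : ∀ a, 0 ≤ β a)
    (hα1 : ∑ a ∈ I, α a ≤ 1) (hβ1 : ∑ a ∈ I, β a ≤ 1)
    (hXb : ∀ a c, X a c ≤ T * (r ^ Nat.dist a c * (α a ^ (1/2 + ε) * β c ^ (1/2 + ε)))) :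
    ∑ a ∈ I, ∑ c ∈ I, (if a = c then 0 else X a c) ≤ T * (2 * r / (1 - r)) := by
  calc _ ≤ ∑ a ∈ I, ∑ c ∈ I, T * ((if a = c then 0 else r ^ Nat.dist a c)
        * (α a ^ (1/2 + ε) * β c ^ (1/2 + ε))) := sum_le_sum fun a _ => sum_le_sum fun c _ => by
          split_ifs
          · simp
          · exact hXb a c
    _ = T * ∑ a ∈ I, ∑ c ∈ I, ((if a = c then 0 else r ^ Nat.dist a c)
        * (α a ^ (1/2 + ε) * β c ^ (1/2 + ε))) := by simp only [mul_sum]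
    _ ≤ T * (2 * r / (1 - r) * ((1 : ℝ) ^ (2 * (1/2 + ε)) + (1 : ℝ) ^ (2 * (1/2 + ε))) / 2) := by
        refine mul_le_mul_of_nonneg_left (schur_rpow I I _ α β (1/2 + ε) 1 1
          (fun a c => by split_ifs <;> first | exact le_rfl | exact pow_nonneg hp.r0 _)
          (fun a _ => geom_row_ne hp.r0 hp.r1 I a) (fun c _ => ?_) hα0 hβ0
          (by linarith [hp.pos])
          (div_nonneg (by linarith [hp.r0]) (by linarith [hp.r1])) hα1 hβ1) hT0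
        simpa [Nat.dist_comm, eq_comm] using geom_row_ne hp.r0 hp.r1 I c
    _ = _ := by rw [Real.one_rpow]; ring

lemma diag_le (hε : 0 < ε) (hT0 : 0 ≤ T) (hα0 : ∀ a, 0 ≤ α a) (hβ0 : ∀ a, 0 ≤ β a)
    (hα1 : ∑ a ∈ I, α a ≤ 1) (hβ1 : ∑ a ∈ I, β a ≤ 1) (k : ℕ)
    (hkmax : ∀ a ∈ I, α a * β a ≤ α k * β k)
    (hXb : ∀ a c, X a c ≤ T * (r ^ Nat.dist a c * (α a ^ (1/2 + ε) * β c ^ (1/2 + ε)))) :
    ∑ a ∈ I, X a a ≤ T * (α k * β k) ^ ε := by
  have h0 : 0 ≤ (α k * β k) ^ ε := Real.rpow_nonneg (mul_nonneg (hα0 k) (hβ0 k)) _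
  calc ∑ a ∈ I, X a a ≤ ∑ a ∈ I, T * ((α k * β k) ^ ε * ((α a + β a) / 2)) := by
        refine sum_le_sum fun a ha => (hXb a a).trans (mul_le_mul_of_nonneg_left ?_ hT0)
        have hab := mul_nonneg (hα0 a) (hβ0 a)
        have hbsplit : (α a * β a) ^ (1/2 + ε) = (α a * β a) ^ ε * Real.sqrt (α a * β a) := by
          rw [Real.sqrt_eq_rpow, ← Real.rpow_add' hab (by linarith)]; ring_nf
        rw [Nat.dist_self, pow_zero, one_mul, ← Real.mul_rpow (hα0 a) (hβ0 a), hbsplit]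
        refine mul_le_mul (Real.rpow_le_rpow hab (hkmax a ha) hε.le) ?_ (Real.sqrt_nonneg _) h0
        rw [Real.sqrt_le_left (by linarith [hα0 a, hβ0 a])]
        nlinarith [sq_nonneg (α a - β a)]
    _ = T * ((α k * β k) ^ ε * ∑ a ∈ I, (α a + β a) / 2) := by simp only [mul_sum]
    _ ≤ _ := by
        refine mul_le_mul_of_nonneg_left (mul_le_of_le_one_right h0 ?_) hT0
        rw [← sum_div, sum_add_distrib]; linarith

lemma side_le {R x y : ℝ} (hε : 0 < ε) (hε' : ε ≤ 1 / 4) (hx : 0 ≤ x) (_hx1 : x ≤ 1) (hy : 0 ≤ y)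
    (hy1 : y ≤ 1) (hxy : 1 - R < (x * y) ^ ε) : 1 - x ≤ R / ε := by
  have h1 : (x * y) ^ ε ≤ x ^ ε :=
    Real.rpow_le_rpow (mul_nonneg hx hy) (mul_le_of_le_one_right hx hy1) hε.le
  have h2 := rpow_one_add_le_one_add_mul_self (s := -(1 - x)) (by linarith) hε.le (by linarith)
  rw [show 1 + -(1 - x) = x by ring] at h2
  rw [le_div_iff₀ hε]; linarith

lemma col_le (hp : BigPar ε r σ) (hT0 : 0 ≤ T) (hα0 : ∀ a, 0 ≤ α a) (hβ0 : ∀ a, 0 ≤ β a)
    (k : ℕ) (hβk : β k ≤ 1) (I' : Finset ℕ) (hkI : k ∉ I')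
    (hXb : ∀ a ∈ I', X a k ≤ T * (r ^ Nat.dist a k * (α a ^ (1/2 + ε) * β k ^ (1/2 + ε)))) :
    ∑ a ∈ I', X a k ≤ T * (2 * r / (1 - r) * (∑ a ∈ I', α a) ^ (1/2 + ε)) := by
  have hb : 0 ≤ 1/2 + ε := by linarith [hp.pos]
  set A := ∑ a ∈ I', α a
  calc ∑ a ∈ I', X a k ≤ ∑ a ∈ I', T * (r ^ Nat.dist k a * A ^ (1/2 + ε)) := by
        refine sum_le_sum fun a ha => (hXb a ha).trans (mul_le_mul_of_nonneg_left ?_ hT0)
        rw [Nat.dist_comm]
        refine mul_le_mul_of_nonneg_left ?_ (pow_nonneg hp.r0 _)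
        exact (mul_le_of_le_one_right (Real.rpow_nonneg (hα0 a) _)
          (Real.rpow_le_one (hβ0 k) hβk hb)).trans
          (Real.rpow_le_rpow (hα0 a) (single_le_sum (fun c _ => hα0 c) ha) hb)
    _ = T * ((∑ a ∈ I', r ^ Nat.dist k a) * A ^ (1/2 + ε)) := by rw [sum_mul, mul_sum]
    _ ≤ _ := by
        refine mul_le_mul_of_nonneg_left (mul_le_mul_of_nonneg_right ?_
          (Real.rpow_nonneg (sum_nonneg fun a _ => hα0 a) _)) hT0
        refine le_trans (le_of_eq ?_) (geom_row_ne hp.r0 hp.r1 I' k)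
        exact sum_congr rfl fun a ha => by rw [if_neg (fun hh => hkI (by rw [hh]; exact ha))]

lemma inner_le (hp : BigPar ε r σ) (hT0 : 0 ≤ T) (hα0 : ∀ a, 0 ≤ α a) (hβ0 : ∀ a, 0 ≤ β a)
    (I' : Finset ℕ)
    (hXb : ∀ a c, X a c ≤ T * (r ^ Nat.dist a c * (α a ^ (1/2 + ε) * β c ^ (1/2 + ε)))) :
    ∑ a ∈ I', ∑ c ∈ I', X a c ≤ T * ((∑ a ∈ I', α a) ^ (2 * (1/2 + ε))
      + (∑ a ∈ I', β a) ^ (2 * (1/2 + ε))) := by
  have hK : (1 + r) / (1 - r) ≤ 2 := by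
    have : (1 + r) / (1 - r) = 1 + 2 * r / (1 - r) := by
      field_simp [show (1 : ℝ) - r ≠ 0 by linarith [hp.r1]]; ring
    linarith [hp.R1]
  calc _ ≤ ∑ a ∈ I', ∑ c ∈ I', T * (r ^ Nat.dist a c * (α a ^ (1/2 + ε) * β c ^ (1/2 + ε))) :=
        sum_le_sum fun a _ => sum_le_sum fun c _ => hXb a c
    _ = T * ∑ a ∈ I', ∑ c ∈ I', r ^ Nat.dist a c * (α a ^ (1/2 + ε) * β c ^ (1/2 + ε)) := by
        simp only [mul_sum]
    _ ≤ T * (2 * ((∑ a ∈ I', α a) ^ (2 * (1/2 + ε))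
          + (∑ a ∈ I', β a) ^ (2 * (1/2 + ε))) / 2) := by
        refine mul_le_mul_of_nonneg_left (schur_rpow I' I' _ α β (1/2 + ε) _ _
          (fun a c => pow_nonneg hp.r0 _) (fun a _ => (geom_row hp.r0 hp.r1 I' a).trans hK)
          (fun c _ => ?_) hα0 hβ0 (by linarith [hp.pos]) (by norm_num) le_rfl le_rfl) hT0
        simpa [Nat.dist_comm] using (geom_row hp.r0 hp.r1 I' c).trans hK
    _ = _ := by ring

/-- The frozen child at the dominant exponent carries at least the whole mass. -/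
theorem commit (hp : BigPar ε r σ) (hT0 : 0 ≤ T) (hα0 : ∀ a, 0 ≤ α a) (hβ0 : ∀ a, 0 ≤ β a)
    (hα1 : ∑ a ∈ I, α a = 1) (hβ1 : ∑ a ∈ I, β a = 1)
    (hXb : ∀ a c, X a c ≤ T * (r ^ Nat.dist a c * (α a ^ (1/2 + ε) * β c ^ (1/2 + ε))))
    (hbad : T < ∑ a ∈ I, ∑ c ∈ I, X a c)
    (hSV : ∀ k ∈ I, (1/2 + ε) * (∑ a ∈ I.erase k, α a) * T ≤ ∑ a ∈ I.erase k, ∑ c ∈ I, X a c)
    (hSW : ∀ k ∈ I, (1/2 + ε) * (∑ a ∈ I.erase k, β a) * T ≤ ∑ c ∈ I.erase k, ∑ a ∈ I, X a c) :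
    ∃ k, T < ∑ a ∈ I, ∑ c ∈ I, X a c * (if a = k then (if c = k then 1 else 1 + σ)
        else (if c = k then 1 + σ else 0)) := by
  obtain ⟨k, hk, hkmax⟩ := exists_max_image I (fun a => α a * β a)
    (by by_contra hc; rw [Finset.not_nonempty_iff_eq_empty] at hc; simp [hc] at hα1)
  refine ⟨k, ?_⟩
  set R := 2 * r / (1 - r) with hR
  have hR0 : 0 ≤ R := div_nonneg (by linarith [hp.r0]) (by linarith [hp.r1])
  set M := (4 * R) ^ (1 / (1 / 2 - ε)) with hM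
  have hM0 : 0 ≤ M := Real.rpow_nonneg (by linarith) _
  have hoff := offdiag_le hp hT0 hα0 hβ0 hα1.le hβ1.le hXb
  have hdiag := diag_le hp.pos hT0 hα0 hβ0 hα1.le hβ1.le k hkmax hXb
  have hsplit : ∑ a ∈ I, ∑ c ∈ I, X a c =
      (∑ a ∈ I, ∑ c ∈ I, if a = c then 0 else X a c) + ∑ a ∈ I, X a a := by
    rw [← sum_add_distrib]
    refine sum_congr rfl fun a ha => ?_
    rw [show X a a = ∑ c ∈ I, if a = c then X a c else 0 by simp [ha], ← sum_add_distrib]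
    exact sum_congr rfl fun c _ => by split_ifs <;> simp
  have hkey : 1 - R < (α k * β k) ^ ε := by
    by_contra hc
    push Not at hc
    nlinarith [mul_le_mul_of_nonneg_left hc hT0]
  have hTpos : 0 < T := hT0.lt_of_ne fun h0 => by
    rw [hsplit] at hbad; rw [← h0] at hbad hoff hdiag; linarith
  set A := ∑ a ∈ I.erase k, α a with hA
  set B := ∑ a ∈ I.erase k, β a with hB
  have hAk : A + α k = 1 := by rw [hA, sum_erase_add _ _ hk, hα1]
  have hBk : B + β k = 1 := by rw [hB, sum_erase_add _ _ hk, hβ1]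
  have hA0 : 0 ≤ A := sum_nonneg fun a _ => hα0 a
  have hB0 : 0 ≤ B := sum_nonneg fun a _ => hβ0 a
  have hAR : A ≤ R / ε := by
    have := side_le hp.pos hp.le (hα0 k) (by linarith) (hβ0 k) (by linarith) hkey
    linarith
  have hBR : B ≤ R / ε := by
    have := side_le hp.pos hp.le (hβ0 k) (by linarith) (hα0 k) (by linarith)
      (by rwa [mul_comm] at hkey)
    linarith
  set colk := ∑ a ∈ I.erase k, X a k with hcolk
  set rowk := ∑ c ∈ I.erase k, X k c with hrowk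
  set X2 := ∑ a ∈ I.erase k, ∑ c ∈ I.erase k, X a c with hX2
  have hcol : colk ≤ T * (R * A ^ (1/2 + ε)) :=
    col_le hp hT0 hα0 hβ0 k (by linarith) _ (notMem_erase k I) (fun a _ => hXb a k)
  have hrow : rowk ≤ T * (R * B ^ (1/2 + ε)) :=
    col_le (X := fun c a => X a c) hp hT0 hβ0 hα0 k (by linarith) _ (notMem_erase k I)
      (fun c _ => (hXb k c).trans (le_of_eq (by rw [Nat.dist_comm]; ring)))
  have hX2b : X2 ≤ T * (A ^ (2 * (1/2 + ε)) + B ^ (2 * (1/2 + ε))) :=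
    inner_le hp hT0 hα0 hβ0 _ hXb
  have eV : ∑ a ∈ I.erase k, ∑ c ∈ I, X a c = colk + X2 := by
    rw [hcolk, hX2, ← sum_add_distrib]
    exact sum_congr rfl fun a _ => by rw [add_comm, sum_erase_add _ _ hk]
  have eW : ∑ c ∈ I.erase k, ∑ a ∈ I, X a c = rowk + X2 := by
    rw [hrowk, hX2, sum_comm (s := I.erase k) (t := I.erase k), ← sum_add_distrib]
    exact sum_congr rfl fun a _ => by rw [add_comm, sum_erase_add _ _ hk]
  have hV := eV ▸ hSV k hk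
  have hW := eW ▸ hSW k hk
  have hb2 : 0 ≤ 2 * (1/2 + ε) := by linarith [hp.pos]
  have hAM : A ≤ M ∧ B ≤ M := by
    rcases le_total B A with hBA | hAB
    · have hp2 : B ^ (2 * (1/2 + ε)) ≤ A ^ (2 * (1/2 + ε)) := Real.rpow_le_rpow hB0 hBA hb2
      have : A ≤ M := small_side hp.pos hp.le hR0 hA0 hAR hp.num1 (by
        refine le_of_mul_le_mul_left ?_ hTpos
        have := mul_le_mul_of_nonneg_left hp2 hT0
        linarith)
      exact ⟨this, hBA.trans this⟩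
    · have hp2 : A ^ (2 * (1/2 + ε)) ≤ B ^ (2 * (1/2 + ε)) := Real.rpow_le_rpow hA0 hAB hb2
      have : B ≤ M := small_side hp.pos hp.le hR0 hB0 hBR hp.num1 (by
        refine le_of_mul_le_mul_left ?_ hTpos
        have := mul_le_mul_of_nonneg_left hp2 hT0
        linarith)
      exact ⟨hAB.trans this, this⟩
  have hpow : ∀ z : ℝ, 0 ≤ z → z ≤ M → z ^ (2 * (1/2 + ε)) ≤ z * M ^ (2 * ε) := by
    intro z hz hzM
    rw [show 2 * (1/2 + ε) = 1 + 2 * ε by ring, Real.rpow_add' hz (by linarith [hp.pos]),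
      Real.rpow_one]
    exact mul_le_mul_of_nonneg_left (Real.rpow_le_rpow hz hzM (by linarith [hp.pos])) hz
  have hX2M : X2 ≤ T * ((A + B) * M ^ (2 * ε)) := by
    refine hX2b.trans (mul_le_mul_of_nonneg_left ?_ hT0)
    linarith [hpow A hA0 hAM.1, hpow B hB0 hAM.2]
  have hTAB : 0 ≤ T * (A + B) := mul_nonneg hT0 (add_nonneg hA0 hB0)
  have hX1 : T * (A + B) / 4 ≤ colk + rowk := by
    have h1 := mul_le_mul_of_nonneg_left hp.num2 hTAB
    have h2 := mul_le_mul_of_nonneg_left hp.pos.le hTAB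
    linarith
  have hσ0 : 0 ≤ σ := le_trans (mul_nonneg (by norm_num) (Real.rpow_nonneg hM0 _)) hp.num3
  have hσX : X2 ≤ σ * (colk + rowk) := by
    have h1 : 0 ≤ T * (A + B) / 4 := by linarith
    calc X2 ≤ T * ((A + B) * M ^ (2 * ε)) := hX2M
      _ ≤ 8 * M ^ (2 * ε) * (T * (A + B) / 4) := by
          have : 0 ≤ T * (A + B) * M ^ (2 * ε) := mul_nonneg hTAB (Real.rpow_nonneg hM0 _)
          linarith
      _ ≤ _ := mul_le_mul hp.num3 hX1 h1 hσ0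
  have e6 : ∑ a ∈ I, ∑ c ∈ I, X a c = X k k + (colk + rowk) + X2 := by
    rw [← sum_erase_add I _ hk, eV, ← sum_erase_add I (fun c => X k c) hk, hrowk]; ring
  have e5 : ∑ a ∈ I, ∑ c ∈ I, X a c * (if a = k then (if c = k then 1 else 1 + σ)
        else (if c = k then 1 + σ else 0)) = X k k + (1 + σ) * (colk + rowk) := by
    rw [← sum_erase_add I _ hk]
    have h1 : ∑ a ∈ I.erase k, ∑ c ∈ I, X a c * (if a = k then (if c = k then 1 else 1 + σ)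
        else (if c = k then 1 + σ else 0)) = (1 + σ) * colk := by
      rw [hcolk, mul_sum]
      refine sum_congr rfl fun a ha => ?_
      simp [(mem_erase.1 ha).1, hk, mul_comm]
    have h2 : ∑ c ∈ I, X k c * (if k = k then (if c = k then (1 : ℝ) else 1 + σ)
        else (if c = k then 1 + σ else 0)) = X k k + (1 + σ) * rowk := by
      rw [← sum_erase_add I _ hk, hrowk, mul_sum, add_comm]
      simp only [if_true, mul_one]
      congr 1
      exact sum_congr rfl fun c hc => by rw [if_neg (mem_erase.1 hc).1]; ring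
    rw [h1, h2]; ring
  rw [e5]
  linarith

end

end Vale.Agent.P028.Gcd
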