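import Vale.Agent.P028.Gcd.Commit

/-!
# The induction over primes in a GCD graph

A mass inequality is reduced to configurations in which every prime is pinned or frozen.
-/

open Finset

namespace Vale.Agent.P028.Gcd

noncomputable section

/-- The fixed data of the induction. -/
structure Data where
  ε : ℝ
  μ : ℕ → ℝ
  ν : ℕ → ℝ
  r : ℕ → ℝ
  σ : ℕ → ℝ
  u₀ : ℕ → ℕ → ℝ
  P : Finset ℕ
  big : ℕ → Prop
  G : ℝ
  hε : 0 < ε
  hε' : ε ≤ 1 / 4
  hG : 0 ≤ G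
  hμ : ∀ v, 0 ≤ μ v
  hν : ∀ v, 0 ≤ ν v
  hu₀ : ∀ v w, 0 ≤ u₀ v w
  hr : ∀ p, 0 ≤ r p
  hr1 : ∀ p, r p < 1
  hσ : ∀ p, 0 ≤ σ p
  hbig : ∀ p ∈ P, big p → BigPar ε (r p) (σ p)

namespace Data

variable (D : Data)

/-- The exponent `1/2 + ε`. -/
def b : ℝ := 1 / 2 + D.ε

open Classical in
/-- Loss factor at a prime. -/
def loss (p : ℕ) : ℝ := if D.big p then 1 else (1 + D.r p) / (1 - D.r p)

lemma one_le_loss (p : ℕ) : 1 ≤ D.loss p := by
  unfold loss
  split_ifs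
  · exact le_rfl
  · rw [le_div_iff₀ (by linarith [D.hr1 p])]; linarith [D.hr p]

lemma loss_nonneg (p : ℕ) : 0 ≤ D.loss p := zero_le_one.trans (D.one_le_loss p)

lemma b_pos : 0 < D.b := by have := D.hε; unfold b; linarith
lemma b_lt_one : D.b < 1 := by have := D.hε'; unfold b; linarith
lemma one_le_two_b : 1 ≤ 2 * D.b := by have := D.hε; unfold b; linarith

/-- The geometric mean scale. -/
def scale (V W : Finset ℕ) : ℝ := (tot D.μ V * tot D.ν W) ^ D.b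

/-- The inequality to be proved at stage `U`. -/
def Bound (U : Finset ℕ) (i j : ℕ → ℕ) (V W : Finset ℕ) (u : ℕ → ℕ → ℝ) : Prop :=
  mass D.μ D.ν u V W ≤ D.G * (∏ p ∈ U, D.loss p) * bias D.r (D.P \ U) i j * D.scale V W

/-- The hypotheses of a stage. -/
def Ok (U : Finset ℕ) (i j : ℕ → ℕ) (V W : Finset ℕ) (u : ℕ → ℕ → ℝ) : Prop :=
  Config u U i j V W ∧ ∀ v w, 0 ≤ u v w ∧ u v w ≤ D.u₀ v w * pw D.σ (D.P \ U) v w

lemma bias_nonneg (S : Finset ℕ) (i j : ℕ → ℕ) : 0 ≤ bias D.r S i j :=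
  prod_nonneg fun p _ => pow_nonneg (D.hr p) _

lemma H_nonneg (U : Finset ℕ) (i j : ℕ → ℕ) :
    0 ≤ D.G * (∏ p ∈ U, D.loss p) * bias D.r (D.P \ U) i j :=
  mul_nonneg (mul_nonneg D.hG (prod_nonneg fun p _ => D.loss_nonneg p)) (D.bias_nonneg _ _ _)

lemma scale_eq_mul (V W : Finset ℕ) :
    D.scale V W = tot D.μ V ^ D.b * tot D.ν W ^ D.b :=
  Real.mul_rpow (tot_nonneg D.hμ _) (tot_nonneg D.hν _)

lemma scale_nonneg (V W : Finset ℕ) : 0 ≤ D.scale V W :=
  Real.rpow_nonneg (mul_nonneg (tot_nonneg D.hμ _) (tot_nonneg D.hν _)) _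

lemma Ok.mono {U : Finset ℕ} {i j : ℕ → ℕ} {V W V' W' : Finset ℕ} {u : ℕ → ℕ → ℝ}
    (h : D.Ok U i j V W u) (hV : V' ⊆ V) (hW : W' ⊆ W) : D.Ok U i j V' W' u :=
  ⟨fun p hp => ⟨fun hne => ⟨fun v hv => ((h.1 p hp).1 hne).1 v (hV hv),
      fun w hw => ((h.1 p hp).1 hne).2 w (hW hw)⟩,
    fun heq v hv w hw hu => (h.1 p hp).2 heq v (hV hv) w (hW hw) hu⟩, h.2⟩

/-- A counterexample all whose vertex deletions satisfy the bound is rich. -/
lemma rich (H : ℝ) (hH : 0 ≤ H) {μ ν : ℕ → ℝ} (hμ : ∀ v, 0 ≤ μ v) (hν : ∀ v, 0 ≤ ν v)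
    {u : ℕ → ℕ → ℝ} (hu : ∀ v w, 0 ≤ u v w) (V W : Finset ℕ)
    (hbad : H * (tot μ V * tot ν W) ^ D.b < mass μ ν u V W)
    (ih : ∀ S ⊆ V, S ≠ V → mass μ ν u S W ≤ H * (tot μ S * tot ν W) ^ D.b) :
    Rich D.b μ ν u V W := by
  intro S hS
  have hm : 0 ≤ mass μ ν u S W := mass_nonneg hμ hν hu _ _
  rcases (tot_nonneg hμ S).eq_or_lt with h0 | h0
  · rw [← h0]
    simpa using mul_nonneg (tot_nonneg hμ V) hm
  have hVpos : 0 < tot μ V := lt_of_lt_of_le h0
    (sum_le_sum_of_subset_of_nonneg hS fun x _ _ => hμ x)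
  set s : ℝ := tot μ S / tot μ V with hs
  have hs0 : 0 ≤ s := div_nonneg h0.le hVpos.le
  have hs1 : s ≤ 1 := (div_le_one hVpos).2 (sum_le_sum_of_subset_of_nonneg hS fun x _ _ => hμ x)
  have hne : V \ S ≠ V := by
    intro he
    have : tot μ S = 0 := by
      have := tot_sdiff (μ := μ) S V hS
      rw [he] at this; linarith
    linarith
  have h1 := ih (V \ S) sdiff_subset hne
  have hrest : tot μ (V \ S) = tot μ V * (1 - s) := by
    have := tot_sdiff (μ := μ) S V hS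
    rw [hs]; field_simp; linarith
  have hconc : (1 - s) ^ D.b ≤ 1 - D.b * s := by
    have := rpow_one_add_le_one_add_mul_self (s := -s) (by linarith) D.b_pos.le D.b_lt_one.le
    simpa [← sub_eq_add_neg] using this
  have hX : 0 ≤ (tot μ V * tot ν W) ^ D.b :=
    Real.rpow_nonneg (mul_nonneg hVpos.le (tot_nonneg hν _)) _
  have h2 : mass μ ν u (V \ S) W ≤ H * (tot μ V * tot ν W) ^ D.b * (1 - D.b * s) := by
    refine h1.trans ?_
    rw [hrest, mul_right_comm (tot μ V), Real.mul_rpow (mul_nonneg hVpos.le (tot_nonneg hν _))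
      (by linarith), ← mul_assoc]
    exact mul_le_mul_of_nonneg_left hconc (mul_nonneg hH hX)
  have hb1 : D.b * s ≤ 1 := by
    calc D.b * s ≤ 1 * 1 := mul_le_mul D.b_lt_one.le hs1 hs0 zero_le_one
      _ = 1 := one_mul 1
  have h3 := mass_sdiff (μ := μ) (ν := ν) (u := u) S V W hS
  have h4 : D.b * s * mass μ ν u V W ≤ mass μ ν u S W := by
    nlinarith [mul_nonneg (sub_nonneg.2 hbad.le) (sub_nonneg.2 hb1)]
  calc D.b * tot μ S * mass μ ν u V W = tot μ V * (D.b * s * mass μ ν u V W) := by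
        rw [hs]; field_simp
    _ ≤ _ := mul_le_mul_of_nonneg_left h4 hVpos.le

/-- The sets with a given exponent at `p`. -/
abbrev fib (p : ℕ) (V : Finset ℕ) (k : ℕ) : Finset ℕ := V.filter fun v => ex p v = k

/-- Passing to a pinned child at the prime `p`. -/
lemma child_ok {U : Finset ℕ} {i j : ℕ → ℕ} {V W : Finset ℕ} {u : ℕ → ℕ → ℝ}
    (h : D.Ok U i j V W u) {p : ℕ} (hp : p ∈ U) (hσ : ∀ v w, 1 ≤
      (if ex p v = ex p w then (1 : ℝ) else 1 + D.σ p)) (hpP : p ∈ D.P) (a c : ℕ) :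
    D.Ok (U.erase p) (Function.update i p a) (Function.update j p c) (fib p V a) (fib p W c) u := by
  refine ⟨fun q hq => ?_, fun v w => ⟨(h.2 v w).1, (h.2 v w).2.trans ?_⟩⟩
  · by_cases hqp : q = p
    · subst hqp
      simp only [Function.update_self]
      exact ⟨fun _ => ⟨fun v hv => (mem_filter.1 hv).2, fun w hw => (mem_filter.1 hw).2⟩,
        fun _ v hv _ _ _ => Or.inl (mem_filter.1 hv).2⟩
    · have hqU : q ∉ U := fun hh => hq (mem_erase.2 ⟨hqp, hh⟩)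
      simp only [Function.update_of_ne hqp]
      exact (h.mono D (filter_subset _ _) (filter_subset _ _)).1 q hqU
  · refine mul_le_mul_of_nonneg_left ?_ (D.hu₀ v w)
    have he : D.P \ U.erase p = insert p (D.P \ U) := by
      ext q
      simp only [mem_sdiff, mem_erase, mem_insert]
      constructor
      · rintro ⟨h1, h2⟩
        by_cases hqp : q = p
        · exact Or.inl hqp
        · exact Or.inr ⟨h1, fun hh => h2 ⟨hqp, hh⟩⟩
      · rintro (rfl | ⟨h1, h2⟩)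
        · exact ⟨hpP, fun hh => hh.1 rfl⟩
        · exact ⟨h1, fun hh => h2 hh.2⟩
    rw [he, pw, pw, prod_insert (fun hh => (mem_sdiff.1 hh).2 hp)]
    exact le_mul_of_one_le_left (pw_nonneg D.hσ _ _ _) (hσ v w)

lemma bias_update {U : Finset ℕ} {p : ℕ} (hp : p ∈ U) (hpP : p ∈ D.P) (i j : ℕ → ℕ) (a c : ℕ) :
    bias D.r (D.P \ U.erase p) (Function.update i p a) (Function.update j p c) =
      D.r p ^ Nat.dist a c * bias D.r (D.P \ U) i j := by
  have he : D.P \ U.erase p = insert p (D.P \ U) := by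
    ext q
    simp only [mem_sdiff, mem_erase, mem_insert]
    constructor
    · rintro ⟨h1, h2⟩
      by_cases hqp : q = p
      · exact Or.inl hqp
      · exact Or.inr ⟨h1, fun hh => h2 ⟨hqp, hh⟩⟩
    · rintro (rfl | ⟨h1, h2⟩)
      · exact ⟨hpP, fun hh => hh.1 rfl⟩
      · exact ⟨h1, fun hh => h2 hh.2⟩
  rw [he, bias, prod_insert (fun hh => (mem_sdiff.1 hh).2 hp)]
  simp only [Function.update_self]
  congr 1
  refine prod_congr rfl fun q hq => ?_
  have hqp : q ≠ p := fun hh => (mem_sdiff.1 hq).2 (hh ▸ hp)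
  simp [Function.update_of_ne hqp]

lemma mass_fib (u : ℕ → ℕ → ℝ) (p : ℕ) (V W : Finset ℕ) (I J : Finset ℕ)
    (hI : ∀ v ∈ V, ex p v ∈ I) (hJ : ∀ w ∈ W, ex p w ∈ J) :
    mass D.μ D.ν u V W = ∑ a ∈ I, ∑ c ∈ J, mass D.μ D.ν u (fib p V a) (fib p W c) := by
  unfold mass
  rw [← sum_fiberwise_of_maps_to hI]
  refine sum_congr rfl fun a _ => ?_
  rw [sum_comm (s := J)]
  exact sum_congr rfl fun v _ => (sum_fiberwise_of_maps_to hJ _).symm

lemma tot_fib (μ : ℕ → ℝ) (p : ℕ) (V I : Finset ℕ) (hI : ∀ v ∈ V, ex p v ∈ I) :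
    ∑ a ∈ I, tot μ (fib p V a) = tot μ V := by
  unfold tot
  exact sum_fiberwise_of_maps_to hI _

end Data

end

end Vale.Agent.P028.Gcd
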