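import Mathlib

/-!
# Multiplicative weights and divisor averages
-/

open Finset

namespace Vale.Agent.P028.Gcd

noncomputable section

/-- `φ(n)/n`. -/
def rho (n : ℕ) : ℝ := (Nat.totient n : ℝ) / n

lemma rho_eq_prod {n : ℕ} (hn : n ≠ 0) :
    rho n = ∏ p ∈ n.primeFactors, (1 - (p : ℝ)⁻¹) := by
  have h : ((Nat.totient n : ℚ) : ℝ) = (((n : ℚ) * ∏ p ∈ n.primeFactors, (1 - (p : ℚ)⁻¹) : ℚ) : ℝ) := by
    rw [Nat.totient_eq_mul_prod_factors]
  push_cast at h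
  rw [rho, h, mul_div_cancel_left₀ _ (by exact_mod_cast hn)]

lemma one_sub_inv_pos {p : ℕ} (hp : p.Prime) : 0 < 1 - (p : ℝ)⁻¹ := by
  have : (1 : ℝ) < p := by exact_mod_cast hp.one_lt
  have := inv_lt_one_of_one_lt₀ this
  linarith

lemma one_sub_inv_le_one (p : ℕ) : 1 - (p : ℝ)⁻¹ ≤ 1 := by
  have : (0 : ℝ) ≤ (p : ℝ)⁻¹ := inv_nonneg.2 (Nat.cast_nonneg p)
  linarith

lemma rho_nonneg (n : ℕ) : 0 ≤ rho n := div_nonneg (Nat.cast_nonneg _) (Nat.cast_nonneg _)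

lemma rho_pos {n : ℕ} (hn : n ≠ 0) : 0 < rho n := by
  rw [rho_eq_prod hn]
  exact prod_pos fun p hp => one_sub_inv_pos (Nat.prime_of_mem_primeFactors hp)

lemma rho_le_one (n : ℕ) : rho n ≤ 1 :=
  div_le_one_of_le₀ (by exact_mod_cast Nat.totient_le n) (Nat.cast_nonneg _)

lemma rho_le_of_dvd {a n : ℕ} (hn : n ≠ 0) (h : a ∣ n) : rho n ≤ rho a := by
  have ha : a ≠ 0 := fun h0 => hn (by subst h0; exact zero_dvd_iff.1 h)
  rw [rho_eq_prod hn, rho_eq_prod ha, ← prod_sdiff (Nat.primeFactors_mono h hn)]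
  refine mul_le_of_le_one_left
    (prod_nonneg fun p hp => (one_sub_inv_pos (Nat.prime_of_mem_primeFactors hp)).le)
    (prod_le_one (fun p hp => ?_) fun p _ => one_sub_inv_le_one p)
  exact (one_sub_inv_pos (Nat.prime_of_mem_primeFactors (mem_sdiff.1 hp).1)).le

/-- The weight `∏_{p ∣ n} (1 + K p^{-τ})`. -/
def wt (τ K : ℝ) (n : ℕ) : ℝ := ∏ p ∈ n.primeFactors, (1 + K * (p : ℝ) ^ (-τ))

lemma one_le_wt {τ K : ℝ} (hK : 0 ≤ K) (n : ℕ) : 1 ≤ wt τ K n := by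
  refine one_le_prod fun p _ => ?_
  have : 0 ≤ K * (p : ℝ) ^ (-τ) := mul_nonneg hK (Real.rpow_nonneg (Nat.cast_nonneg _) _)
  linarith

lemma wt_nonneg {τ K : ℝ} (hK : 0 ≤ K) (n : ℕ) : 0 ≤ wt τ K n :=
  zero_le_one.trans (one_le_wt hK n)

lemma wt_mul_le {τ K : ℝ} (hK : 0 ≤ K) {a c : ℕ} (ha : a ≠ 0) (hc : c ≠ 0) :
    wt τ K (a * c) ≤ wt τ K a * wt τ K c := by
  unfold wt
  have h1 : ∀ p : ℕ, (1 : ℝ) ≤ 1 + K * (p : ℝ) ^ (-τ) := fun p => by
    have : 0 ≤ K * (p : ℝ) ^ (-τ) := mul_nonneg hK (Real.rpow_nonneg (Nat.cast_nonneg _) _)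
    linarith
  rw [Nat.primeFactors_mul ha hc, ← prod_union_inter (s₁ := a.primeFactors) (s₂ := c.primeFactors)]
  exact le_mul_of_one_le_right (prod_nonneg fun p _ => zero_le_one.trans (h1 p))
    (one_le_prod fun p _ => h1 p)

lemma wt_prod_le {τ K L : ℝ} (hτ : 0 ≤ τ) (hK : 0 ≤ K) (hL : 0 ≤ L) (n : ℕ) :
    wt τ K n * wt τ L n ≤ wt τ (K + L + K * L) n := by
  unfold wt
  rw [← prod_mul_distrib]
  refine prod_le_prod (fun p _ => ?_) fun p hp => ?_
  · positivity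
  · have h1 : (p : ℝ) ^ (-τ) ≤ 1 := Real.rpow_le_one_of_one_le_of_nonpos
      (by exact_mod_cast (Nat.prime_of_mem_primeFactors hp).one_le) (by linarith)
    have h2 : 0 ≤ (p : ℝ) ^ (-τ) := Real.rpow_nonneg (Nat.cast_nonneg _) _
    nlinarith [mul_nonneg (mul_nonneg hK hL) (mul_nonneg h2 (sub_nonneg.2 h1))]

lemma wt_mono {τ K L : ℝ} (hK : 0 ≤ K) (hKL : K ≤ L) (n : ℕ) : wt τ K n ≤ wt τ L n := by
  refine prod_le_prod (fun p _ => ?_) fun p _ => ?_
  · positivity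
  · gcongr

lemma wt_pow_le {τ K : ℝ} (hτ : 0 ≤ τ) (hK : 0 ≤ K) (k n : ℕ) :
    wt τ K n ^ k ≤ wt τ ((1 + K) ^ k - 1) n := by
  have h0 : ∀ j : ℕ, 0 ≤ (1 + K) ^ j - 1 := fun j => by
    linarith [one_le_pow₀ (M₀ := ℝ) (n := j) (show 1 ≤ 1 + K by linarith)]
  induction k with
  | zero => simp [wt]
  | succ k ih =>
    rw [pow_succ]
    refine (mul_le_mul_of_nonneg_right ih (wt_nonneg hK n)).trans
      ((wt_prod_le hτ (h0 k) hK n).trans (le_of_eq ?_))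
    congr 1
    ring

/-- Expansion of a weight over sets of prime factors. -/
lemma wt_expand (τ K : ℝ) (n : ℕ) :
    wt τ K n = ∑ t ∈ n.primeFactors.powerset, ∏ p ∈ t, K * (p : ℝ) ^ (-τ) :=
  prod_one_add _

/-- The bound for `∑ η(d)/d`. -/
def wtC (τ K : ℝ) : ℝ := Real.exp (K * ∑' n : ℕ, (n : ℝ) ^ (-τ - 1))

lemma wtC_pos (τ K : ℝ) : 0 < wtC τ K := Real.exp_pos _

lemma sum_powerset_le {τ K : ℝ} (hτ : 0 < τ) (hK : 0 ≤ K) (U : Finset ℕ) :
    ∑ t ∈ U.powerset, ∏ p ∈ t, K * (p : ℝ) ^ (-τ) / p ≤ wtC τ K := by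
  rw [← prod_one_add]
  have hs : Summable (fun n : ℕ => (n : ℝ) ^ (-τ - 1)) := Real.summable_nat_rpow.2 (by linarith)
  have h : ∀ p : ℕ, (p : ℝ) ^ (-τ) / p ≤ (p : ℝ) ^ (-τ - 1) := fun p => by
    rcases Nat.eq_zero_or_pos p with rfl | hp
    · simp [Real.rpow_nonneg]
    · rw [Real.rpow_sub_one (by positivity)]
  calc ∏ p ∈ U, (1 + K * (p : ℝ) ^ (-τ) / p)
      ≤ ∏ p ∈ U, Real.exp (K * (p : ℝ) ^ (-τ - 1)) := by
        refine prod_le_prod (fun p _ => ?_) fun p _ => ?_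
        · positivity
        · have := Real.add_one_le_exp (K * (p : ℝ) ^ (-τ - 1))
          have := mul_le_mul_of_nonneg_left (h p) hK
          rw [mul_div_assoc]
          linarith
    _ = Real.exp (K * ∑ p ∈ U, (p : ℝ) ^ (-τ - 1)) := by rw [← Real.exp_sum, mul_sum]
    _ ≤ _ := Real.exp_le_exp.2 (mul_le_mul_of_nonneg_left
        (hs.sum_le_tsum _ fun n _ => Real.rpow_nonneg (Nat.cast_nonneg _) _) hK)

/-- Exchange of a weight with a sum. -/
lemma sum_wt_le {τ K : ℝ} (hτ : 0 < τ) (hK : 0 ≤ K) (S : Finset ℕ) (f : ℕ → ℝ) (Y : ℝ)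
    (hY : 0 ≤ Y)
    (hd : ∀ d : ℕ, 0 < d → ∑ m ∈ S.filter (fun m => d ∣ m), f m ≤ Y / d)
    (hf : ∀ m ∈ S, 0 ≤ f m) :
    ∑ m ∈ S, wt τ K m * f m ≤ wtC τ K * Y := by
  set U := S.biUnion Nat.primeFactors with hU
  have key : ∀ m ∈ S, wt τ K m * f m ≤ ∑ t ∈ U.powerset,
      (if (∏ p ∈ t, p) ∣ m then (∏ p ∈ t, K * (p : ℝ) ^ (-τ)) * f m else 0) := by
    intro m hm
    rw [wt_expand, sum_mul]
    have hsub : m.primeFactors.powerset ⊆ U.powerset :=
      powerset_mono.2 (subset_biUnion_of_mem Nat.primeFactors hm)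
    calc ∑ t ∈ m.primeFactors.powerset, (∏ p ∈ t, K * (p : ℝ) ^ (-τ)) * f m
        = ∑ t ∈ m.primeFactors.powerset,
          (if (∏ p ∈ t, p) ∣ m then (∏ p ∈ t, K * (p : ℝ) ^ (-τ)) * f m else 0) := by
          refine sum_congr rfl fun t ht => ?_
          rw [if_pos ((prod_dvd_prod_of_subset _ _ (fun p => p) (mem_powerset.1 ht)).trans
            (Nat.prod_primeFactors_dvd m))]
      _ ≤ _ := by
          refine sum_le_sum_of_subset_of_nonneg hsub fun t _ _ => ?_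
          split_ifs
          · exact mul_nonneg (prod_nonneg fun p _ => mul_nonneg hK
              (Real.rpow_nonneg (Nat.cast_nonneg _) _)) (hf m hm)
          · exact le_rfl
  calc ∑ m ∈ S, wt τ K m * f m ≤ _ := sum_le_sum key
    _ = ∑ t ∈ U.powerset,
        (∏ p ∈ t, K * (p : ℝ) ^ (-τ)) * ∑ m ∈ S.filter (fun m => (∏ p ∈ t, p) ∣ m), f m := by
        rw [sum_comm]
        exact sum_congr rfl fun t _ => by rw [mul_sum, sum_filter]
    _ ≤ ∑ t ∈ U.powerset, (∏ p ∈ t, K * (p : ℝ) ^ (-τ) / p) * Y := by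
        refine sum_le_sum fun t ht => ?_
        have hpos : 0 < ∏ p ∈ t, p := prod_pos fun p hp => by
          obtain ⟨m, _, hpm⟩ := mem_biUnion.1 (mem_powerset.1 ht hp)
          exact Nat.pos_of_mem_primeFactors hpm
        refine (mul_le_mul_of_nonneg_left (hd _ hpos) (prod_nonneg fun p _ => mul_nonneg hK
          (Real.rpow_nonneg (Nat.cast_nonneg _) _))).trans (le_of_eq ?_)
        rw [prod_div_distrib, Nat.cast_prod]
        ring
    _ ≤ wtC τ K * Y := by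
        rw [← sum_mul]
        exact mul_le_mul_of_nonneg_right (sum_powerset_le hτ hK U) hY

/-- Mean value of a weight against the law `φ(A/s)/A` of a random divisor. -/
lemma sum_divisors_wt_le {τ K : ℝ} (hτ : 0 < τ) (hK : 0 ≤ K) {A : ℕ} (hA : 0 < A) :
    ∑ s ∈ A.divisors, (Nat.totient (A / s) : ℝ) / A * wt τ K s ≤ wtC τ K := by
  have h : ∀ d : ℕ, 0 < d → ∑ s ∈ A.divisors.filter (fun s => d ∣ s),
      (Nat.totient (A / s) : ℝ) ≤ (A : ℝ) / d := by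
    intro d hd
    by_cases hdA : d ∣ A
    · have hn : ∑ s ∈ A.divisors.filter (fun s => d ∣ s), Nat.totient (A / s) ≤ A / d := by
        refine le_trans ?_ (le_of_eq (Nat.sum_totient (A / d)))
        rw [← sum_image (f := fun x => Nat.totient x) (g := fun s => A / s)]
        · refine sum_le_sum_of_subset fun x hx => ?_
          obtain ⟨s, hs, rfl⟩ := mem_image.1 hx
          obtain ⟨hsA, hds⟩ := mem_filter.1 hs
          exact Nat.mem_divisors.2 ⟨Nat.div_dvd_div_left (Nat.dvd_of_mem_divisors hsA) hds,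
            (Nat.div_pos (Nat.le_of_dvd hA hdA) hd).ne'⟩
        · intro s hs s' hs' he
          have h1 := Nat.dvd_of_mem_divisors (mem_filter.1 hs).1
          have h2 := Nat.dvd_of_mem_divisors (mem_filter.1 hs').1
          simp only at he
          rw [← Nat.div_div_self h1 hA.ne', he, Nat.div_div_self h2 hA.ne']
      calc _ ≤ ((A / d : ℕ) : ℝ) := by exact_mod_cast hn
        _ ≤ _ := Nat.cast_div_le
    · rw [filter_false_of_mem fun s hs hds => hdA (hds.trans (Nat.dvd_of_mem_divisors hs))]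
      simpa using by positivity
  have hAR : (0 : ℝ) < A := by exact_mod_cast hA
  calc _ = (∑ s ∈ A.divisors, wt τ K s * (Nat.totient (A / s) : ℝ)) / A := by
        rw [sum_div]; exact sum_congr rfl fun s _ => by ring
    _ ≤ wtC τ K * A / A :=
        div_le_div_of_nonneg_right (sum_wt_le hτ hK _ _ A hAR.le h (fun _ _ => Nat.cast_nonneg _))
          hAR.le
    _ = _ := by field_simp

lemma card_mult_le (S : Finset ℕ) (Y : ℝ) (hY : 0 ≤ Y) (hS : ∀ m ∈ S, 0 < m ∧ (m : ℝ) ≤ Y)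
    (d : ℕ) : ((S.filter (fun m => d ∣ m)).card : ℝ) ≤ Y / d := by
  have h : S.filter (fun m => d ∣ m) ⊆ (Finset.Ioc 0 ⌊Y⌋₊).filter (fun m => d ∣ m) := by
    intro m hm
    obtain ⟨hm1, hm2⟩ := mem_filter.1 hm
    exact mem_filter.2 ⟨mem_Ioc.2 ⟨(hS m hm1).1, Nat.le_floor (hS m hm1).2⟩, hm2⟩
  have h1 := card_le_card h
  rw [Nat.Ioc_filter_dvd_card_eq_div] at h1
  calc ((S.filter (fun m => d ∣ m)).card : ℝ) ≤ ((⌊Y⌋₊ / d : ℕ) : ℝ) := by exact_mod_cast h1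
    _ ≤ (⌊Y⌋₊ : ℝ) / d := Nat.cast_div_le
    _ ≤ _ := div_le_div_of_nonneg_right (Nat.floor_le hY) (Nat.cast_nonneg _)

lemma sum_inv_sq_mult_le (S : Finset ℕ) (Y : ℝ) (hY : 0 < Y) (hS : ∀ m ∈ S, Y < (m : ℝ))
    (d : ℕ) (hd : 0 < d) :
    ∑ m ∈ S.filter (fun m => d ∣ m), Y ^ 2 / (m : ℝ) ^ 2 ≤ 3 * Y / d := by
  set T := (S.filter (fun m => d ∣ m)).image (fun m => m / d) with hT
  have hdR : (0 : ℝ) < d := by exact_mod_cast hd
  have e : ∑ m ∈ S.filter (fun m => d ∣ m), Y ^ 2 / (m : ℝ) ^ 2 =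
      Y ^ 2 / (d : ℝ) ^ 2 * ∑ k ∈ T, ((k : ℝ) ^ 2)⁻¹ := by
    rw [hT, sum_image, mul_sum]
    · refine sum_congr rfl fun m hm => ?_
      obtain ⟨c, hc⟩ := (mem_filter.1 hm).2
      subst hc
      rw [Nat.mul_div_cancel_left c hd]
      push_cast
      by_cases hc0 : (c : ℝ) = 0
      · simp [hc0]
      · field_simp
    · intro x hx y hy hxy
      have h1 := Nat.div_mul_cancel (mem_filter.1 hx).2
      have h2 := Nat.div_mul_cancel (mem_filter.1 hy).2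
      simp only at hxy
      rw [hxy] at h1; omega
  have hk : ∀ k ∈ T, 0 < k ∧ Y / d < (k : ℝ) := by
    intro k hk
    obtain ⟨m, hm, rfl⟩ := mem_image.1 hk
    obtain ⟨hmS, c, hc⟩ := mem_filter.1 hm
    have := hS m hmS
    subst hc
    rw [Nat.mul_div_cancel_left c hd]
    push_cast at this
    have hc' : Y / d < (c : ℝ) := (div_lt_iff₀ hdR).2 (by linarith)
    exact ⟨by exact_mod_cast (div_pos hY hdR).trans hc', hc'⟩
  have hbound : ∑ k ∈ T, ((k : ℝ) ^ 2)⁻¹ ≤ 3 * ((d : ℝ) / Y) := by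
    obtain ⟨N, hN⟩ := T.bddAbove
    set k0 := ⌊Y / d⌋₊ with hk0
    have hsub : T ⊆ Finset.Ioc k0 (max (k0 + 1) N) := fun k hk' => mem_Ioc.2
      ⟨(Nat.floor_lt (div_pos hY hdR).le).2 (hk k hk').2, le_trans (hN hk') (le_max_right _ _)⟩
    refine (sum_le_sum_of_subset_of_nonneg hsub fun _ _ _ => by positivity).trans ?_
    by_cases h0 : k0 = 0
    · have hYd : Y / d < 1 := (Nat.floor_eq_zero.1 h0)
      rw [h0]
      calc ∑ k ∈ Finset.Ioc 0 (max (0 + 1) N), ((k : ℝ) ^ 2)⁻¹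
          ≤ 1 + ∑ k ∈ Finset.Ioc 1 (max (0 + 1) N), ((k : ℝ) ^ 2)⁻¹ := by
            rw [zero_add, ← Finset.sum_Ioc_consecutive (fun k : ℕ => ((k : ℝ) ^ 2)⁻¹) zero_le_one
              (le_max_left 1 N)]
            simp [show Finset.Ioc 0 1 = {1} from rfl]
        _ ≤ 1 + ((1 : ℕ) : ℝ)⁻¹ := by
            refine add_le_add_right (le_trans (sum_Ioc_inv_sq_le_sub one_ne_zero
              (le_max_left _ _)) ?_) 1
            simp
        _ ≤ _ := by
            have : 1 < (d : ℝ) / Y := by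
              rw [lt_div_iff₀ hY]; rw [div_lt_iff₀ hdR] at hYd; linarith
            norm_num; linarith
    · refine (sum_Ioc_inv_sq_le_sub h0 (le_trans (Nat.le_succ k0) (le_max_left _ _))).trans ?_
      have h1 : Y / d < (k0 : ℝ) + 1 := Nat.lt_floor_add_one _
      have h2 : (1 : ℝ) ≤ k0 := by exact_mod_cast Nat.one_le_iff_ne_zero.2 h0
      have h3 : (k0 : ℝ)⁻¹ ≤ 3 * ((d : ℝ) / Y) := by
        rw [show (k0 : ℝ)⁻¹ = 1 / (k0 : ℝ) by ring, show 3 * ((d : ℝ) / Y) = 3 / (Y / d) by field_simp,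
          div_le_div_iff₀ (by linarith) (div_pos hY hdR)]
        linarith
      have : (0 : ℝ) ≤ ((max (k0 + 1) N : ℕ) : ℝ)⁻¹ := by positivity
      linarith
  rw [e]
  refine (mul_le_mul_of_nonneg_left hbound (by positivity)).trans (le_of_eq ?_)
  field_simp

/-- Weighted count of integers below a weighted threshold. -/
lemma sum_wt_range_le {τ K : ℝ} (hτ : 0 < τ) (hK : 0 ≤ K) (S : Finset ℕ) (Y : ℝ) (hY : 0 ≤ Y)
    (hS : ∀ m ∈ S, 0 < m ∧ (m : ℝ) ≤ Y * wt τ K m) :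
    ∑ m ∈ S, wt τ K m ≤ 4 * wtC τ ((1 + K) ^ 3 - 1) * Y := by
  set L := (1 + K) ^ 3 - 1 with hL
  have hKL : K ≤ L := by rw [hL]; nlinarith [mul_nonneg hK hK, pow_nonneg hK 3]
  have hL0 : 0 ≤ L := hK.trans hKL
  rcases hY.eq_or_lt with h0 | hY0
  · have : S = ∅ := eq_empty_of_forall_notMem fun m hm => by
      obtain ⟨h1, h2⟩ := hS m hm
      rw [← h0, zero_mul] at h2
      have : (0 : ℝ) < m := by exact_mod_cast h1
      linarith
    simp [this, ← h0]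
  have hlo : ∑ m ∈ S.filter (fun m : ℕ => (m : ℝ) ≤ Y), wt τ L m * (1 : ℝ) ≤ wtC τ L * Y := by
    refine sum_wt_le hτ hL0 _ _ Y hY (fun d hd => ?_) (fun _ _ => zero_le_one)
    rw [sum_const, nsmul_one]
    exact card_mult_le _ Y hY (fun m hm => ⟨(hS m (mem_filter.1 hm).1).1, (mem_filter.1 hm).2⟩) d
  have hhi : ∑ m ∈ S.filter (fun m : ℕ => ¬(m : ℝ) ≤ Y), wt τ L m * (Y ^ 2 / (m : ℝ) ^ 2)
      ≤ wtC τ L * (3 * Y) := by
    refine sum_wt_le hτ hL0 _ _ _ (by linarith) (fun d hd => ?_) (fun _ _ => by positivity)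
    exact (sum_inv_sq_mult_le _ Y hY0 (fun m hm => not_le.1 (mem_filter.1 hm).2) d hd)
  have h1 : ∑ m ∈ S.filter (fun m : ℕ => (m : ℝ) ≤ Y), wt τ K m ≤ wtC τ L * Y :=
    (sum_le_sum fun m _ => by rw [mul_one]; exact wt_mono hK hKL m).trans hlo
  have h2 : ∑ m ∈ S.filter (fun m : ℕ => ¬(m : ℝ) ≤ Y), wt τ K m ≤ wtC τ L * (3 * Y) := by
    refine (sum_le_sum fun m hm => ?_).trans hhi
    obtain ⟨hm0, hmw⟩ := hS m (mem_filter.1 hm).1
    have hmR : (0 : ℝ) < m := by exact_mod_cast hm0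
    have hw := wt_nonneg (τ := τ) hK m
    calc wt τ K m ≤ wt τ K m * ((Y * wt τ K m) ^ 2 / (m : ℝ) ^ 2) := by
          refine le_mul_of_one_le_right hw ?_
          rw [one_le_div (by positivity)]
          exact pow_le_pow_left₀ hmR.le hmw 2
      _ = wt τ K m ^ 3 * (Y ^ 2 / (m : ℝ) ^ 2) := by ring
      _ ≤ _ := mul_le_mul_of_nonneg_right (wt_pow_le hτ.le hK 3 m) (by positivity)
  rw [← sum_filter_add_sum_filter_not S (fun m : ℕ => (m : ℝ) ≤ Y)]
  linarith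

/-- A weight is at most any positive power. -/
lemma exists_wt_le_rpow {τ K κ : ℝ} (hτ : 0 < τ) (hK : 0 ≤ K) (hκ : 0 < κ) :
    ∃ C : ℝ, 0 < C ∧ ∀ n : ℕ, n ≠ 0 → wt τ K n ≤ C * (n : ℝ) ^ κ := by
  obtain ⟨N, hN⟩ := exists_nat_gt ((1 + K) ^ (1 / κ))
  refine ⟨(1 + K) ^ N, pow_pos (by linarith) N, fun n hn => ?_⟩
  have hfac : ∀ p ∈ n.primeFactors, 1 + K * (p : ℝ) ^ (-τ) ≤
      (p : ℝ) ^ κ * (if p < N then 1 + K else 1) := by
    intro p hp
    have hp1 : (1 : ℝ) ≤ p := by exact_mod_cast (Nat.prime_of_mem_primeFactors hp).one_le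
    have h0 : 1 + K * (p : ℝ) ^ (-τ) ≤ 1 + K := by
      have := mul_le_mul_of_nonneg_left
        (Real.rpow_le_one_of_one_le_of_nonpos hp1 (neg_nonpos.2 hτ.le)) hK
      linarith
    have hpk : 1 ≤ (p : ℝ) ^ κ := Real.one_le_rpow hp1 hκ.le
    split_ifs with h
    · exact h0.trans (le_mul_of_one_le_left (by linarith) hpk)
    · rw [mul_one]
      refine h0.trans ?_
      have h2 : (1 + K) ^ (1 / κ) ≤ (p : ℝ) :=
        hN.le.trans (by exact_mod_cast not_lt.1 h)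
      calc 1 + K = ((1 + K) ^ (1 / κ)) ^ κ := by
            rw [← Real.rpow_mul (by linarith), one_div_mul_cancel hκ.ne', Real.rpow_one]
        _ ≤ _ := Real.rpow_le_rpow (by positivity) h2 hκ.le
  refine (prod_le_prod (fun p _ => by positivity) hfac).trans ?_
  rw [prod_mul_distrib, mul_comm]
  refine mul_le_mul ?_ ?_ (prod_nonneg fun p _ => by positivity) (by positivity)
  · rw [prod_ite, prod_const, prod_const_one, mul_one]
    refine pow_le_pow_right₀ (by linarith) ?_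
    refine (card_le_card (fun p hp => mem_range.2 (mem_filter.1 hp).2)).trans (le_of_eq ?_)
    exact card_range N
  · rw [Real.finsetProd_rpow _ _ (fun p _ => Nat.cast_nonneg _), ← Nat.cast_prod]
    exact Real.rpow_le_rpow (Nat.cast_nonneg _)
      (by exact_mod_cast Nat.le_of_dvd (Nat.pos_of_ne_zero hn) (Nat.prod_primeFactors_dvd n)) hκ.le

end

end Vale.Agent.P028.Gcd
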