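import Vale.Agent.P028.Gcd.Basic
import Vale.Agent.P028.Gcd.Weights

/-!
# Geometry of a base configuration

When every prime is pinned or frozen, `v = A m / s` and `w = B n / t` with `s ∣ A`, `t ∣ B`, and
along an edge the reduced quotients are `A' m t` and `B' n s`.
-/

open Finset

namespace Vale.Agent.P028.Gcd

noncomputable section

/-- A product of prime powers. -/
def ppow (P : Finset ℕ) (f : ℕ → ℕ) : ℕ := ∏ p ∈ P, p ^ f p

lemma ppow_ne_zero {P : Finset ℕ} (hP : ∀ p ∈ P, p.Prime) (f : ℕ → ℕ) : ppow P f ≠ 0 :=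
  prod_ne_zero_iff.2 fun p hp => pow_ne_zero _ (hP p hp).ne_zero

lemma ex_ppow {P : Finset ℕ} (hP : ∀ p ∈ P, p.Prime) (f : ℕ → ℕ) (q : ℕ) :
    ex q (ppow P f) = if q ∈ P then f q else 0 := by
  unfold ex ppow
  rw [Nat.factorization_prod_apply fun p hp => pow_ne_zero _ (hP p hp).ne_zero,
    ← sum_ite_eq' P q f]
  refine sum_congr rfl fun p hp => ?_
  rw [(hP p hp).factorization_pow, Finsupp.single_apply]

lemma eq_of_ex_eq {a b : ℕ} (ha : a ≠ 0) (hb : b ≠ 0) (h : ∀ q, ex q a = ex q b) : a = b :=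
  Nat.eq_of_factorization_eq ha hb h

lemma ex_mul {a b : ℕ} (ha : a ≠ 0) (hb : b ≠ 0) (q : ℕ) : ex q (a * b) = ex q a + ex q b := by
  simp [ex, Nat.factorization_mul ha hb]

lemma ex_gcd {a b : ℕ} (ha : a ≠ 0) (hb : b ≠ 0) (q : ℕ) :
    ex q (a.gcd b) = min (ex q a) (ex q b) := by
  simp [ex, Nat.factorization_gcd ha hb, Finsupp.inf_apply]

lemma bias_eq {P : Finset ℕ} (e : ℝ) (i j : ℕ → ℕ) :
    bias (fun p : ℕ => (p : ℝ) ^ (-e)) P i j =
      ((ppow P (fun p => i p - j p) : ℝ) * (ppow P (fun p => j p - i p) : ℝ)) ^ (-e) := by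
  unfold bias ppow
  push_cast
  rw [← prod_mul_distrib, ← Real.finsetProd_rpow _ _ (fun p _ => by positivity)]
  refine prod_congr rfl fun p _ => ?_
  rw [← pow_add, ← Real.rpow_natCast, ← Real.rpow_natCast, ← Real.rpow_mul (Nat.cast_nonneg _),
    ← Real.rpow_mul (Nat.cast_nonneg _), mul_comm]
  rfl

/-- Data of a base configuration. -/
structure Shape where
  P : Finset ℕ
  hP : ∀ p ∈ P, p.Prime
  i : ℕ → ℕ
  j : ℕ → ℕ

namespace Shape

variable (S : Shape)

/-- Frozen primes. -/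
def F : Finset ℕ := S.P.filter fun p => S.i p = S.j p

def A : ℕ := ppow S.P S.i
def B : ℕ := ppow S.P S.j
def A' : ℕ := ppow S.P (fun p => S.i p - S.j p)
def B' : ℕ := ppow S.P (fun p => S.j p - S.i p)
/-- Excess of `v` at frozen primes. -/
def up (v : ℕ) : ℕ := ppow S.F (fun p => ex p v - S.i p)
/-- Defect of `v` at frozen primes. -/
def down (v : ℕ) : ℕ := ppow S.F (fun p => S.i p - ex p v)

/-- The swapped shape. -/
def swap : Shape := ⟨S.P, S.hP, S.j, S.i⟩

lemma hF : ∀ p ∈ S.F, p.Prime := fun p hp => S.hP p (mem_filter.1 hp).1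

lemma swap_F : S.swap.F = S.F := filter_congr fun _ _ => eq_comm
lemma swap_up (w : ℕ) : S.swap.up w = S.up w := by
  unfold up
  rw [swap_F]
  refine prod_congr rfl fun p hp => ?_
  simp only [show S.swap.i p = S.i p from (mem_filter.1 hp).2.symm]
lemma swap_down (w : ℕ) : S.swap.down w = S.down w := by
  unfold down
  rw [swap_F]
  refine prod_congr rfl fun p hp => ?_
  simp only [show S.swap.i p = S.i p from (mem_filter.1 hp).2.symm]
lemma swap_A : S.swap.A = S.B := rfl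
lemma swap_B : S.swap.B = S.A := rfl
lemma swap_A' : S.swap.A' = S.B' := rfl
lemma swap_B' : S.swap.B' = S.A' := rfl

lemma A_pos : 0 < S.A := Nat.pos_of_ne_zero (ppow_ne_zero S.hP _)
lemma B_pos : 0 < S.B := Nat.pos_of_ne_zero (ppow_ne_zero S.hP _)
lemma A'_pos : 0 < S.A' := Nat.pos_of_ne_zero (ppow_ne_zero S.hP _)
lemma B'_pos : 0 < S.B' := Nat.pos_of_ne_zero (ppow_ne_zero S.hP _)
lemma up_pos (v : ℕ) : 0 < S.up v := Nat.pos_of_ne_zero (ppow_ne_zero S.hF _)
lemma down_pos (v : ℕ) : 0 < S.down v := Nat.pos_of_ne_zero (ppow_ne_zero S.hF _)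

lemma ex_frozen (f : ℕ → ℕ) (q : ℕ) :
    ex q (ppow S.F f) = if q ∈ S.P ∧ S.i q = S.j q then f q else 0 := by
  rw [ex_ppow S.hF]
  simp [F]

/-- Admissible vertex of the `A` side. -/
def Mem (v : ℕ) : Prop :=
  v ≠ 0 ∧ (∀ q, q ∉ S.P → ex q v = 0) ∧ ∀ q ∈ S.P, S.i q ≠ S.j q → ex q v = S.i q

lemma down_dvd (v : ℕ) : S.down v ∣ S.A := by
  rw [← Nat.factorization_le_iff_dvd (Nat.pos_iff_ne_zero.1 (S.down_pos v))
    (Nat.pos_iff_ne_zero.1 S.A_pos)]
  intro q
  show ex q (S.down v) ≤ ex q S.A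
  rw [down, A, S.ex_frozen, ex_ppow S.hP]
  split_ifs <;> simp_all

lemma mul_down {v : ℕ} (h : S.Mem v) : v * S.down v = S.A * S.up v := by
  obtain ⟨hv, h0, h1⟩ := h
  refine eq_of_ex_eq (mul_ne_zero hv (S.down_pos v).ne') (mul_ne_zero S.A_pos.ne' (S.up_pos v).ne')
    fun q => ?_
  rw [ex_mul hv (S.down_pos v).ne', ex_mul S.A_pos.ne' (S.up_pos v).ne', down, up, A,
    S.ex_frozen, S.ex_frozen, ex_ppow S.hP]
  by_cases hq : q ∈ S.P
  · by_cases hij : S.i q = S.j q
    · simp only [hq, hij, and_self, if_true]; omega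
    · simp [hq, hij, h1 q hq hij]
  · simp [hq, h0 q hq]

lemma pair_inj {v v' : ℕ} (h : S.Mem v) (h' : S.Mem v') (he : S.down v = S.down v')
    (he' : S.up v = S.up v') : v = v' := by
  have h1 := S.mul_down h
  rw [he, he', ← S.mul_down h'] at h1
  exact Nat.eq_of_mul_eq_mul_right (S.down_pos v') h1

lemma quotient_eq {v w : ℕ} (hv : S.Mem v) (hw : S.swap.Mem w)
    (hfr : ∀ q ∈ S.P, S.i q = S.j q → ex q v = S.i q ∨ ex q w = S.i q) :
    v / v.gcd w = S.A' * S.up v * S.down w := by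
  have hg : v.gcd w ≠ 0 := Nat.gcd_ne_zero_left hv.1
  have ha : S.A' * S.up v * S.down w ≠ 0 :=
    mul_ne_zero (mul_ne_zero S.A'_pos.ne' (S.up_pos v).ne') (S.down_pos w).ne'
  have h : v = (S.A' * S.up v * S.down w) * v.gcd w := by
    refine eq_of_ex_eq hv.1 (mul_ne_zero ha hg) fun q => ?_
    rw [ex_mul ha hg, ex_mul (mul_ne_zero S.A'_pos.ne' (S.up_pos v).ne') (S.down_pos w).ne',
      ex_mul S.A'_pos.ne' (S.up_pos v).ne', ex_gcd hv.1 hw.1, A', up, down, S.ex_frozen,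
      S.ex_frozen, ex_ppow S.hP]
    by_cases hq : q ∈ S.P
    · by_cases hij : S.i q = S.j q
      · rcases hfr q hq hij with h | h <;> simp only [hq, hij, and_self, if_true] <;> omega
      · have e1 := hv.2.2 q hq hij
        have e2 : ex q w = S.j q := hw.2.2 q hq fun he => hij he.symm
        simp only [hq, hij, and_false, if_false, if_true, e1, e2]
        omega
    · have e1 := hv.2.1 q hq
      simp [hq, e1]
  exact Nat.div_eq_of_eq_mul_left (Nat.pos_of_ne_zero hg) h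

lemma rho_div_le {v : ℕ} (h : S.Mem v) :
    rho v / S.down v ≤ (Nat.totient (S.A / S.down v) : ℝ) / S.A := by
  obtain ⟨c, hc⟩ := S.down_dvd v
  have hdp := S.down_pos v
  have hc0 : c ≠ 0 := fun h0 => S.A_pos.ne' (by rw [hc, h0, mul_zero])
  have hcv : c ∣ v := ⟨S.up v, by
    have := S.mul_down h
    rw [hc, mul_assoc, mul_comm v] at this
    exact Nat.eq_of_mul_eq_mul_left hdp this⟩
  have hdR : (0 : ℝ) < S.down v := by exact_mod_cast hdp
  refine (div_le_div_of_nonneg_right (rho_le_of_dvd h.1 hcv) hdR.le).trans (le_of_eq ?_)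
  rw [hc, Nat.mul_div_cancel_left c hdp, rho]
  push_cast
  field_simp

end Shape

end

end Vale.Agent.P028.Gcd
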