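import Vale.Agent.P028.Gcd.Large

/-!
# Interpolation at two anchors, and the parameters of large primes
-/

open Finset Filter

namespace Vale.Agent.P028.Gcd

noncomputable section

variable {μ ν : ℕ → ℝ} {u : ℕ → ℕ → ℝ} {ε : ℝ}

lemma degree {V W : Finset ℕ} {b : ℝ} (hr : Rich b μ ν u V W) {v : ℕ}
    (hv : v ∈ V) (hμv : 0 < μ v) :
    b * mass μ ν u V W ≤ tot μ V * ∑ w ∈ W, ν w * u v w := by
  have h := hr {v} (singleton_subset_iff.2 hv)
  have e : mass μ ν u {v} W = μ v * ∑ w ∈ W, ν w * u v w := by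
    simp [mass, mul_sum, mul_assoc]
  rw [e, tot, sum_singleton] at h
  refine le_of_mul_le_mul_left ?_ hμv
  calc μ v * (b * mass μ ν u V W) = b * μ v * mass μ ν u V W := by ring
    _ ≤ _ := h
    _ = _ := by ring

lemma holder (hε : 0 ≤ ε) (hε' : ε ≤ 1 / 4) (W : Finset ℕ) (f : ℕ → ℝ) (hν : ∀ v, 0 ≤ ν v)
    (hf : ∀ w, 0 ≤ f w) :
    ∑ w ∈ W, ν w * f w ≤
      tot ν W ^ (2 * ε) * (∑ w ∈ W, ν w * f w ^ (1 / (1 - 2 * ε))) ^ (1 - 2 * ε) := by
  have h := Real.inner_le_weight_mul_Lp_of_nonneg W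
    (show 1 ≤ 1 / (1 - 2 * ε) by rw [le_div_iff₀ (by linarith)]; linarith) ν f hν hf
  rw [one_div, inv_inv] at h
  rw [one_div]
  simpa [tot] using h

/-- The two-anchor bound. -/
lemma interp (hε : 0 ≤ ε) (hε' : ε ≤ 1 / 4) (hμ : ∀ v, 0 ≤ μ v) (hν : ∀ v, 0 ≤ ν v)
    (hu : ∀ v w, 0 ≤ u v w) {V W : Finset ℕ} (hV : Rich (1/2 + ε) μ ν u V W)
    (hW : Rich (1/2 + ε) ν μ (fun w v => u v w) W V) {v0 w0 : ℕ} (hv0 : v0 ∈ V) (hμv0 : 0 < μ v0)
    (hw0 : w0 ∈ W) (hνw0 : 0 < ν w0) {X : ℝ}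
    (hX : (∑ w ∈ W, ν w * u v0 w ^ (1 / (1 - 2 * ε))) *
      (∑ v ∈ V, μ v * u v w0 ^ (1 / (1 - 2 * ε))) ≤ X) :
    mass μ ν u V W ≤ 2 * X ^ (1/2 - ε) * (tot μ V * tot ν W) ^ (1/2 + ε) := by
  set m := mass μ ν u V W
  set Y := ∑ w ∈ W, ν w * u v0 w ^ (1 / (1 - 2 * ε))
  set Z := ∑ v ∈ V, μ v * u v w0 ^ (1 / (1 - 2 * ε))
  have hY : 0 ≤ Y := sum_nonneg fun w _ => mul_nonneg (hν w) (Real.rpow_nonneg (hu _ _) _)
  have hZ : 0 ≤ Z := sum_nonneg fun w _ => mul_nonneg (hμ w) (Real.rpow_nonneg (hu _ _) _)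
  have hm : 0 ≤ m := mass_nonneg hμ hν hu V W
  have hTV := tot_nonneg hμ V
  have hTW := tot_nonneg hν W
  have h1 : m / 2 ≤ tot μ V * (tot ν W ^ (2 * ε) * Y ^ (1 - 2 * ε)) := by
    have h := (degree hV hv0 hμv0).trans
      (mul_le_mul_of_nonneg_left (holder hε hε' W (fun w => u v0 w) hν fun w => hu _ _) hTV)
    linarith [mul_nonneg hε hm]
  have h2 : m / 2 ≤ tot ν W * (tot μ V ^ (2 * ε) * Z ^ (1 - 2 * ε)) := by
    have h := (degree hW hw0 hνw0).trans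
      (mul_le_mul_of_nonneg_left (holder hε hε' V (fun v => u v w0) hμ fun v => hu _ _) hTW)
    rw [mass_flip] at h
    linarith [mul_nonneg hε hm]
  set P := tot μ V * tot ν W
  have hP : 0 ≤ P := mul_nonneg hTV hTW
  have h3 : (m / 2) ^ 2 ≤ P ^ (1 + 2 * ε) * (Y * Z) ^ (1 - 2 * ε) := by
    refine (le_of_eq (sq (m / 2))).trans ((mul_le_mul h1 h2 (by linarith) (le_trans (by linarith) h1)).trans
      (le_of_eq ?_))
    rw [Real.rpow_add' hP (by linarith), Real.rpow_one, Real.mul_rpow hTV hTW,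
      Real.mul_rpow hY hZ]
    ring
  have h4 : (m / 2) ^ 2 ≤ (X ^ (1/2 - ε) * P ^ (1/2 + ε)) ^ 2 := by
    refine h3.trans ?_
    rw [mul_pow, ← Real.rpow_natCast (X ^ _) 2, ← Real.rpow_natCast (P ^ _) 2,
      ← Real.rpow_mul ((mul_nonneg hY hZ).trans hX), ← Real.rpow_mul hP, mul_comm]
    push_cast
    ring_nf
    rw [mul_comm (P ^ _)]
    refine mul_le_mul_of_nonneg_right ?_ (Real.rpow_nonneg hP _)
    exact Real.rpow_le_rpow (mul_nonneg hY hZ) hX (by linarith)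
  have h5 : 0 ≤ X ^ (1/2 - ε) * P ^ (1/2 + ε) :=
    mul_nonneg (Real.rpow_nonneg ((mul_nonneg hY hZ).trans hX) _) (Real.rpow_nonneg hP _)
  have := (pow_le_pow_iff_left₀ (by linarith) h5 two_ne_zero).1 h4
  linarith

/-- All large primes admit the commitment step. -/
lemma exists_bigPar (hε : 0 < ε) (hε' : ε ≤ 1 / 4) :
    ∃ N : ℕ, 2 ≤ N ∧ ∀ p : ℕ, N ≤ p →
      BigPar ε ((p : ℝ) ^ (-((1/2 - ε) / 2))) ((p : ℝ) ^ (-(ε / 2))) := by
  set a := 1/2 - ε with ha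
  have ha0 : 0 < a := by rw [ha]; linarith
  have hr : Tendsto (fun x : ℝ => x ^ (-(a / 2))) atTop (nhds 0) :=
    tendsto_rpow_neg_atTop (by linarith)
  have hR : Tendsto (fun x : ℝ => 2 * x ^ (-(a / 2)) / (1 - x ^ (-(a / 2)))) atTop (nhds 0) := by
    simpa [Pi.div_def] using ((hr.const_mul 2).div (tendsto_const_nhds.sub hr) (by norm_num : (1 : ℝ) - 0 ≠ 0))
  have h1 : Tendsto (fun x : ℝ => 2 * (2 * x ^ (-(a / 2)) / (1 - x ^ (-(a / 2))) / ε) ^ (2 * ε))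
      atTop (nhds 0) := by
    simpa [Real.zero_rpow (by linarith : 2 * ε ≠ 0)] using
      (((hR.div_const ε).rpow_const (Or.inr (by linarith : 0 ≤ 2 * ε))).const_mul 2)
  have h2 : Tendsto (fun x : ℝ =>
      ((4 * (2 * x ^ (-(a / 2)) / (1 - x ^ (-(a / 2))))) ^ (1 / a)) ^ (2 * ε)) atTop (nhds 0) := by
    simpa [Real.zero_rpow (inv_ne_zero ha0.ne'), Real.zero_rpow (by linarith : 2 * ε ≠ 0)] using
      (((hR.const_mul 4).rpow_const (Or.inr (one_div_nonneg.2 ha0.le))).rpow_const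
        (Or.inr (by linarith : 0 ≤ 2 * ε)))
  have h3 := (tendsto_rpow_atTop (show 0 < ε / 2 by linarith)).eventually_ge_atTop
    (8 * ((4 * 4 : ℝ) ^ (1 / a)) ^ (2 * ε))
  have hev := (((eventually_ge_atTop (2 : ℝ)).and (hr.eventually (eventually_le_nhds
    (show (0 : ℝ) < 1 / 2 by norm_num)))).and ((hR.eventually (eventually_lt_nhds one_pos)).and
    ((h1.eventually (eventually_le_nhds (show (0 : ℝ) < (1/2 + ε) / 2 by linarith))).and
    ((h2.eventually (eventually_le_nhds (show (0 : ℝ) < 1 / 16 by norm_num))).and h3))))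
  obtain ⟨x0, hx0⟩ := eventually_atTop.1 hev
  obtain ⟨N, hN⟩ := exists_nat_gt (max x0 2)
  have hN2 : 2 ≤ N := by
    have : (2 : ℝ) < N := lt_of_le_of_lt (le_max_right _ _) hN
    exact_mod_cast this.le
  refine ⟨N, hN2, fun p hp => ?_⟩
  have hpx : x0 ≤ (p : ℝ) := (le_max_left _ _).trans (hN.le.trans (by exact_mod_cast hp))
  obtain ⟨⟨hx2, hxr⟩, hxR, hx1, hxM, hx3⟩ := hx0 p hpx
  have hp0 : (0 : ℝ) < p := by linarith
  have hr0 : 0 ≤ (p : ℝ) ^ (-(a / 2)) := Real.rpow_nonneg hp0.le _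
  refine ⟨hε, hε', hr0, by linarith, hxR, hx1, hxM, ?_⟩
  calc 8 * ((4 * (2 * (p : ℝ) ^ (-(a / 2)) / (1 - (p : ℝ) ^ (-(a / 2))))) ^ (1 / a)) ^ (2 * ε)
      ≤ 8 * ((4 * 4 * (p : ℝ) ^ (-(a / 2))) ^ (1 / a)) ^ (2 * ε) := by
        refine mul_le_mul_of_nonneg_left (Real.rpow_le_rpow ?_ (Real.rpow_le_rpow ?_ ?_
          (one_div_nonneg.2 ha0.le)) (by linarith)) (by norm_num)
        · exact Real.rpow_nonneg (mul_nonneg (by norm_num)
            (div_nonneg (by linarith) (by linarith))) _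
        · exact mul_nonneg (by norm_num) (div_nonneg (by linarith) (by linarith))
        · rw [mul_assoc (4 : ℝ) 4]
          refine mul_le_mul_of_nonneg_left ?_ (by norm_num)
          rw [div_le_iff₀ (by linarith)]
          nlinarith
    _ = 8 * ((4 * 4 : ℝ) ^ (1 / a)) ^ (2 * ε) * (p : ℝ) ^ (-ε) := by
        rw [Real.mul_rpow (x := 4 * 4) (by norm_num) hr0, Real.mul_rpow (by positivity)
          (Real.rpow_nonneg hr0 _), ← Real.rpow_mul hp0.le, ← Real.rpow_mul hp0.le]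
        rw [show -(a / 2) * (1 / a) * (2 * ε) = -ε by field_simp]
        ring
    _ ≤ (p : ℝ) ^ (ε / 2) * (p : ℝ) ^ (-ε) :=
        mul_le_mul_of_nonneg_right hx3 (Real.rpow_nonneg hp0.le _)
    _ = _ := by rw [← Real.rpow_add hp0]; ring_nf

end

end Vale.Agent.P028.Gcd
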