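import Vale.Agent.P028.Gcd.Step

/-!
# A large prime is committed at no loss, and the reduction theorem
-/

open Finset

namespace Vale.Agent.P028.Gcd

noncomputable section

namespace Data

variable (D : Data)

/-- Frozen weight at exponent `k`. -/
def frozen (p k : ℕ) (u : ℕ → ℕ → ℝ) (v w : ℕ) : ℝ :=
  u v w * (if ex p v = k then (if ex p w = k then 1 else 1 + D.σ p)
    else (if ex p w = k then 1 + D.σ p else 0))

lemma frozen_ok {U : Finset ℕ} {p : ℕ} (hp : p ∈ U) (hpP : p ∈ D.P) {i j : ℕ → ℕ}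
    {V W : Finset ℕ} {u : ℕ → ℕ → ℝ} (h : D.Ok U i j V W u) (k : ℕ) :
    D.Ok (U.erase p) (Function.update i p k) (Function.update j p k) V W (D.frozen p k u) := by
  have hσ := D.hσ p
  refine ⟨fun q hq => ?_, fun v w => ⟨?_, ?_⟩⟩
  · by_cases hqp : q = p
    · subst hqp
      simp only [Function.update_self, ne_eq, not_true_eq_false, IsEmpty.forall_iff, true_and]
      intro _ v _ w _ hu
      by_contra hc
      push Not at hc
      simp [frozen, hc.1, hc.2] at hu
    · have hqU : q ∉ U := fun hh => hq (mem_erase.2 ⟨hqp, hh⟩)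
      simp only [Function.update_of_ne hqp]
      refine ⟨(h.1 q hqU).1, fun he v hv w hw hu => (h.1 q hqU).2 he v hv w hw ?_⟩
      intro h0; simp [frozen, h0] at hu
  · refine mul_nonneg (h.2 v w).1 ?_
    split_ifs <;> linarith
  · have he : D.P \ U.erase p = insert p (D.P \ U) := by
      ext q
      simp only [mem_sdiff, mem_erase, mem_insert]
      constructor
      · rintro ⟨h1, h2⟩
        by_cases hqp : q = p
        · exact Or.inl hqp
        · exact Or.inr ⟨h1, fun hh => h2 ⟨hqp, hh⟩⟩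
      · rintro (rfl | ⟨h1, h2⟩)
        · exact ⟨hpP, fun hh => hh.1 rfl⟩
        · exact ⟨h1, fun hh => h2 hh.2⟩
    rw [he, pw, prod_insert (fun hh => (mem_sdiff.1 hh).2 hp), ← pw]
    calc D.frozen p k u v w ≤ u v w * (if ex p v = ex p w then 1 else 1 + D.σ p) := by
          refine mul_le_mul_of_nonneg_left ?_ (h.2 v w).1
          split_ifs <;> first | omega | linarith
      _ ≤ D.u₀ v w * pw D.σ (D.P \ U) v w * (if ex p v = ex p w then 1 else 1 + D.σ p) := by
          refine mul_le_mul_of_nonneg_right (h.2 v w).2 ?_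
          split_ifs <;> linarith
      _ = _ := by ring

lemma side_degree {μ ν : ℕ → ℝ} (hμ : ∀ v, 0 ≤ μ v) (u : ℕ → ℕ → ℝ) (p : ℕ) (V W I : Finset ℕ)
    (hI : ∀ v ∈ V, ex p v ∈ I) (hpos : 0 < tot μ V) (hrich : Rich D.b μ ν u V W) {T : ℝ}
    (hT : T ≤ mass μ ν u V W) (α Y : ℕ → ℝ) (hα : ∀ a, α a = tot μ (fib p V a) / tot μ V)
    (hY : ∀ a, Y a = mass μ ν u (fib p V a) W) :
    ∀ k ∈ I, D.b * (∑ a ∈ I.erase k, α a) * T ≤ ∑ a ∈ I.erase k, Y a := by
  intro k _
  have hI' : ∀ v ∈ V \ fib p V k, ex p v ∈ I.erase k := fun v hv => by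
    simp only [mem_sdiff, mem_filter, not_and] at hv
    exact mem_erase.2 ⟨hv.2 hv.1, hI v hv.1⟩
  have hfib : ∀ a ∈ I.erase k, fib p (V \ fib p V k) a = fib p V a := fun a ha => by
    ext v
    simp only [mem_filter, mem_sdiff, not_and]
    exact ⟨fun h => ⟨h.1.1, h.2⟩, fun h => ⟨⟨h.1, fun _ he => (mem_erase.1 ha).1 (h.2 ▸ he)⟩, h.2⟩⟩
  have e1 : ∑ a ∈ I.erase k, Y a = mass μ ν u (V \ fib p V k) W := by
    simp only [mass]
    rw [← sum_fiberwise_of_maps_to hI']
    exact sum_congr rfl fun a ha => by rw [hY, mass, ← hfib a ha]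
  have e2 : ∑ a ∈ I.erase k, α a = tot μ (V \ fib p V k) / tot μ V := by
    rw [tot, ← sum_fiberwise_of_maps_to hI', sum_div]
    exact sum_congr rfl fun a ha => by rw [hα, tot, ← hfib a ha]
  have hS := hrich (V \ fib p V k) sdiff_subset
  rw [e1, e2]
  have h0 : 0 ≤ D.b * (tot μ (V \ fib p V k) / tot μ V) :=
    mul_nonneg D.b_pos.le (div_nonneg (tot_nonneg hμ _) hpos.le)
  refine (mul_le_mul_of_nonneg_left hT h0).trans ?_
  rw [mul_div_assoc', div_mul_eq_mul_div, div_le_iff₀ hpos]
  linarith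

/-- The large prime step. -/
lemma large_step {U : Finset ℕ} {p : ℕ} (hp : p ∈ U) (hpP : p ∈ D.P) (hb : D.big p)
    (hnext : D.Next U p) {i j : ℕ → ℕ} {V W : Finset ℕ} {u : ℕ → ℕ → ℝ} (h : D.Ok U i j V W u)
    (hrichV : Rich D.b D.μ D.ν u V W) (hrichW : Rich D.b D.ν D.μ (fun w v => u v w) W V)
    (hbad : D.G * (∏ q ∈ U, D.loss q) * bias D.r (D.P \ U) i j * D.scale V W
      < mass D.μ D.ν u V W) : False := by
  classical
  set H := D.G * (∏ q ∈ U, D.loss q) * bias D.r (D.P \ U) i j with hH
  have hH0 : 0 ≤ H := D.H_nonneg U i j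
  set T := H * D.scale V W with hT
  have hT0 : 0 ≤ T := mul_nonneg hH0 (D.scale_nonneg V W)
  have hμ0 : 0 < tot D.μ V := (tot_nonneg D.hμ V).lt_of_ne fun h0 => by
    rw [mass_eq_zero_of_tot D.hμ V W h0.symm] at hbad; linarith
  have hν0 : 0 < tot D.ν W := (tot_nonneg D.hν W).lt_of_ne fun h0 => by
    rw [← mass_flip, mass_eq_zero_of_tot D.hν W V h0.symm] at hbad; linarith
  set I := V.image (ex p) ∪ W.image (ex p) with hI
  have hV : ∀ v ∈ V, ex p v ∈ I := fun v hv => mem_union_left _ (mem_image_of_mem _ hv)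
  have hW : ∀ w ∈ W, ex p w ∈ I := fun v hv => mem_union_right _ (mem_image_of_mem _ hv)
  set α := fun a => tot D.μ (fib p V a) / tot D.μ V with hα
  set β := fun a => tot D.ν (fib p W a) / tot D.ν W with hβ
  have hα0 : ∀ a, 0 ≤ α a := fun a => div_nonneg (tot_nonneg D.hμ _) hμ0.le
  have hβ0 : ∀ a, 0 ≤ β a := fun a => div_nonneg (tot_nonneg D.hν _) hν0.le
  have hα1 : ∑ a ∈ I, α a = 1 := by
    rw [hα, ← sum_div, tot_fib _ p V I hV, div_self hμ0.ne']
  have hβ1 : ∑ a ∈ I, β a = 1 := by
    rw [hβ, ← sum_div, tot_fib _ p W I hW, div_self hν0.ne']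
  set X := fun a c => mass D.μ D.ν u (fib p V a) (fib p W c) with hX
  have hX0 : ∀ a c, 0 ≤ X a c := fun a c => mass_nonneg D.hμ D.hν (fun v w => (h.2 v w).1) _ _
  have hloss : D.loss p = 1 := by simp [loss, hb]
  have hXb : ∀ a c, X a c ≤ T * (D.r p ^ Nat.dist a c * (α a ^ D.b * β c ^ D.b)) := by
    intro a c
    have := D.child_bound hp hpP hnext h a c
    rw [hloss, one_mul] at this
    refine this.trans (le_of_eq ?_)
    rw [hT, D.scale_eq_mul]
    simp only [hα, hβ]
    rw [Real.div_rpow (tot_nonneg D.hμ _) hμ0.le, Real.div_rpow (tot_nonneg D.hν _) hν0.le]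
    have := (Real.rpow_pos_of_pos hμ0 D.b).ne'
    have := (Real.rpow_pos_of_pos hν0 D.b).ne'
    field_simp
    ring
  have hm : mass D.μ D.ν u V W = ∑ a ∈ I, ∑ c ∈ I, X a c := D.mass_fib u p V W I I hV hW
  -- the degree conditions
  have hfull : ∀ a, ∑ c ∈ I, X a c = mass D.μ D.ν u (fib p V a) W := by
    intro a
    rw [D.mass_fib u p (fib p V a) W {a} I (fun v hv => mem_singleton.2 (mem_filter.1 hv).2) hW,
      sum_singleton]
    exact sum_congr rfl fun c _ => by
      simp only [hX]
      congr 1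
      simp [fib, filter_filter]
  have hfull' : ∀ c, ∑ a ∈ I, X a c = mass D.μ D.ν u V (fib p W c) := by
    intro c
    rw [D.mass_fib u p V (fib p W c) I {c} hV (fun v hv => mem_singleton.2 (mem_filter.1 hv).2)]
    simp only [sum_singleton]
    exact sum_congr rfl fun a _ => by
      simp only [hX]
      congr 1
      simp [fib, filter_filter]
  have hSV := D.side_degree (ν := D.ν) D.hμ u p V W I hV hμ0 hrichV hbad.le α
    (fun a => ∑ c ∈ I, X a c) (fun a => rfl) hfull
  have hSW := D.side_degree (ν := D.μ) D.hν (fun w v => u v w) p W V I hW hν0 hrichW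
    (T := T) (by rw [mass_flip]; exact hbad.le) β (fun c => ∑ a ∈ I, X a c) (fun a => rfl)
    (fun c => by rw [mass_flip]; exact hfull' c)
  rw [hm] at hbad
  obtain ⟨k, hk⟩ := commit (D.hbig p hpP hb) hT0 hα0 hβ0 hα1 hβ1 hXb hbad hSV hSW
  -- the frozen child contradicts the inductive hypothesis
  have hchild := hnext _ _ _ _ _ (D.frozen_ok hp hpP h k)
  rw [Bound, D.bias_update hp hpP, Nat.dist_self, pow_zero, one_mul] at hchild
  rw [← mul_prod_erase U D.loss hp, hloss, one_mul] at hH
  rw [← hH, ← hT, D.mass_fib _ p V W I I hV hW] at hchild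
  have hfr : ∀ a c, mass D.μ D.ν (D.frozen p k u) (fib p V a) (fib p W c) =
      X a c * (if a = k then (if c = k then 1 else 1 + D.σ p)
        else (if c = k then 1 + D.σ p else 0)) := by
    intro a c
    simp only [hX, mass, sum_mul]
    refine sum_congr rfl fun v hv => sum_congr rfl fun w hw => ?_
    rw [frozen, (mem_filter.1 hv).2, (mem_filter.1 hw).2]
    ring
  simp only [hfr] at hchild
  linarith

/-- The reduction to base configurations. -/
theorem reduce
    (base : ∀ i j V W u, D.Ok ∅ i j V W u → Rich D.b D.μ D.ν u V W →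
      Rich D.b D.ν D.μ (fun w v => u v w) W V →
      mass D.μ D.ν u V W ≤ D.G * bias D.r D.P i j * D.scale V W) :
    ∀ U ⊆ D.P, ∀ i j V W u, D.Ok U i j V W u → D.Bound U i j V W u := by
  intro U
  induction U using Finset.strongInduction with
  | H U ihU =>
    intro hU i j V W u h
    generalize hn : V.card + W.card = n
    induction n using Nat.strong_induction_on generalizing V W with
    | _ n ihn =>
      subst hn
      by_contra hbad
      rw [Bound, not_le] at hbad
      have hu : ∀ v w, 0 ≤ u v w := fun v w => (h.2 v w).1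
      have hH := D.H_nonneg U i j
      have rV : Rich D.b D.μ D.ν u V W := D.rich _ hH D.hμ D.hν hu V W hbad fun S hS hne =>
        ihn _ (by have := card_lt_card (hS.ssubset_of_ne hne); omega) S W
          (h.mono D hS Subset.rfl) rfl
      have rW : Rich D.b D.ν D.μ (fun w v => u v w) W V := by
        refine D.rich _ hH D.hν D.hμ (fun w v => hu v w) W V ?_ fun S hS hne => ?_
        · rw [mass_flip, mul_comm (tot D.ν W)]; exact hbad
        · rw [mass_flip, mul_comm (tot D.ν S)]
          exact ihn _ (by have := card_lt_card (hS.ssubset_of_ne hne); omega) V S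
            (h.mono D Subset.rfl hS) rfl
      rcases U.eq_empty_or_nonempty with rfl | ⟨p, hp⟩
      · have := base i j V W u h rV rW
        rw [prod_empty, mul_one, sdiff_empty] at hbad
        linarith
      · have hnext : D.Next U p := fun i' j' V' W' u' h' =>
          ihU _ (erase_ssubset hp) ((erase_subset _ _).trans hU) i' j' V' W' u' h'
        by_cases hb : D.big p
        · exact D.large_step hp (hU hp) hb hnext h rV rW hbad
        · have := D.small_step hp (hU hp) hb hnext h
          rw [Bound] at this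
          linarith

end Data

end

end Vale.Agent.P028.Gcd
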