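import Vale.Agent.P028.Gcd.Geometry
import Vale.Agent.P028.Gcd.Interp

/-!
# From base configurations to the whole graph
-/

open Finset

namespace Vale.Agent.P028.Gcd

noncomputable section

/-- The quotient `v / gcd(v, w)`. -/
def quo (v w : ℕ) : ℕ := v / v.gcd w

lemma quo_pos {v w : ℕ} (hv : v ≠ 0) : 0 < quo v w :=
  Nat.div_pos (Nat.le_of_dvd (Nat.pos_of_ne_zero hv) (Nat.gcd_dvd_left v w))
    (Nat.gcd_pos_of_pos_left _ (Nat.pos_of_ne_zero hv))

lemma ex_quo {v w : ℕ} (hv : v ≠ 0) (hw : w ≠ 0) (q : ℕ) :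
    ex q (quo v w) = ex q v - ex q w := by
  unfold quo ex
  rw [Nat.factorization_div (Nat.gcd_dvd_left v w), Nat.factorization_gcd hv hw]
  simp only [Finsupp.tsub_apply, Finsupp.inf_apply]
  omega

lemma wt_anti {τ τ' K : ℝ} (hK : 0 ≤ K) (h : τ' ≤ τ) (n : ℕ) : wt τ K n ≤ wt τ' K n := by
  refine prod_le_prod (fun p _ => ?_) fun p hp => ?_
  · positivity
  · gcongr
    exact_mod_cast (Nat.prime_of_mem_primeFactors hp).one_le

lemma pw_le_wt {τ : ℝ} {σ : ℕ → ℝ} (hσ0 : ∀ p, 0 ≤ σ p) {P : Finset ℕ}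
    (hσ : ∀ p ∈ P, σ p ≤ (p : ℝ) ^ (-τ)) {v w : ℕ} (hv : v ≠ 0)
    (hw : w ≠ 0) : pw σ P v w ≤ wt τ 1 (quo v w * quo w v) := by
  have h1 : pw σ P v w = ∏ p ∈ P.filter (fun p => ex p v ≠ ex p w), (1 + σ p) := by
    rw [pw, prod_filter]
    exact prod_congr rfl fun p _ => by simp [ite_not]
  have hne : quo v w * quo w v ≠ 0 := mul_ne_zero (quo_pos hv).ne' (quo_pos hw).ne'
  have hsub : P.filter (fun p => ex p v ≠ ex p w) ⊆ (quo v w * quo w v).primeFactors := by
    intro p hp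
    obtain ⟨hpP, hne'⟩ := mem_filter.1 hp
    rw [← Nat.support_factorization, Finsupp.mem_support_iff]
    show ex p (quo v w * quo w v) ≠ 0
    rw [ex_mul (quo_pos hv).ne' (quo_pos hw).ne', ex_quo hv hw, ex_quo hw hv]
    omega
  rw [h1, wt]
  refine (prod_le_prod (fun p _ => by linarith [hσ0 p]) fun p hp => ?_).trans
    (prod_le_prod_of_subset_of_one_le hsub (fun p _ => ?_) fun p _ _ => ?_)
  · rw [one_mul]; linarith [hσ p (mem_filter.1 hp).1]
  · positivity
  · have : (0 : ℝ) ≤ 1 * (p : ℝ) ^ (-τ) := by positivity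
    linarith

/-- The hypothesis on base configurations. -/
def BaseBound (ε G : ℝ) (μ ν : ℕ → ℝ) (u₀ : ℕ → ℕ → ℝ) : Prop :=
  ∀ (S : Shape) (V W : Finset ℕ) (u : ℕ → ℕ → ℝ),
    (∀ v ∈ V, S.Mem v) → (∀ w ∈ W, S.swap.Mem w) →
    (∀ v ∈ V, ∀ w ∈ W, u v w ≠ 0 → ∀ q ∈ S.P, S.i q = S.j q → ex q v = S.i q ∨ ex q w = S.i q) →
    (∀ v w, 0 ≤ u v w) → (∀ v ∈ V, ∀ w ∈ W, u v w ≤ u₀ v w * wt (ε / 2) 1 (quo v w * quo w v)) →
    Rich (1/2 + ε) μ ν u V W → Rich (1/2 + ε) ν μ (fun w v => u v w) W V →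
    mass μ ν u V W ≤
      G * ((S.A' : ℝ) * (S.B' : ℝ)) ^ (-((1/2 - ε) / 2)) * (tot μ V * tot ν W) ^ (1/2 + ε)

lemma tot_cut (μ : ℕ → ℝ) (V V0 : Finset ℕ) :
    tot (fun v => if v ∈ V0 then μ v else 0) V = tot μ (V ∩ V0) := by
  simp [tot, sum_ite_mem]

lemma mass_cut (μ ν : ℕ → ℝ) (u : ℕ → ℕ → ℝ) (V W V0 W0 : Finset ℕ) :
    mass (fun v => if v ∈ V0 then μ v else 0) (fun w => if w ∈ W0 then ν w else 0) u V W =
      mass μ ν u (V ∩ V0) (W ∩ W0) := by
  simp [mass, ite_mul, mul_ite, sum_ite_mem]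

/-- The master reduction: a uniform base bound gives the bound for every graph. -/
theorem master {ε : ℝ} (hε : 0 < ε) (hε' : ε ≤ 1 / 4) :
    ∃ C : ℝ, 0 < C ∧ ∀ (G : ℝ) (μ ν : ℕ → ℝ) (u₀ : ℕ → ℕ → ℝ), 0 ≤ G → (∀ v, 0 ≤ μ v) →
      (∀ v, 0 ≤ ν v) → (∀ v w, 0 ≤ u₀ v w) → BaseBound ε G μ ν u₀ →
      ∀ V W : Finset ℕ, 0 ∉ V → 0 ∉ W →
        mass μ ν u₀ V W ≤ C * G * (tot μ V * tot ν W) ^ (1/2 + ε) := by
  classical
  obtain ⟨N, hN2, hbig⟩ := exists_bigPar hε hε'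
  set a := (1/2 - ε) / 2 with ha
  have ha0 : 0 < a := by rw [ha]; linarith
  set r : ℕ → ℝ := fun p => if 2 ≤ p then (p : ℝ) ^ (-a) else 0 with hr
  have hr0 : ∀ p, 0 ≤ r p := fun p => by
    simp only [hr]; split_ifs
    · exact Real.rpow_nonneg (Nat.cast_nonneg _) _
    · exact le_rfl
  have hr1 : ∀ p, r p < 1 := fun p => by
    simp only [hr]; split_ifs with h
    · exact Real.rpow_lt_one_of_one_lt_of_neg (by exact_mod_cast h) (by linarith)
    · exact zero_lt_one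
  set σ : ℕ → ℝ := fun p => if N ≤ p then (p : ℝ) ^ (-(ε / 2)) else 0 with hσ
  have hσ0 : ∀ p, 0 ≤ σ p := fun p => by
    simp only [hσ]; split_ifs
    · exact Real.rpow_nonneg (Nat.cast_nonneg _) _
    · exact le_rfl
  refine ⟨∏ p ∈ range N, (1 + r p) / (1 - r p), prod_pos fun p _ =>
    div_pos (by linarith [hr0 p]) (by linarith [hr1 p]), ?_⟩
  intro G μ ν u₀ hG hμ hν hu₀ hbase V W hV0 hW0
  set P := (V ∪ W).biUnion Nat.primeFactors with hP
  have hPp : ∀ p ∈ P, p.Prime := fun p hp => by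
    obtain ⟨n, _, hn⟩ := mem_biUnion.1 hp
    exact Nat.prime_of_mem_primeFactors hn
  have hout : ∀ n ∈ V ∪ W, ∀ q, q ∉ P → ex q n = 0 := fun n hn q hq => by
    by_contra h
    exact hq (mem_biUnion.2 ⟨n, hn, by
      rw [← Nat.support_factorization]; exact Finsupp.mem_support_iff.2 h⟩)
  let D : Data :=
    { ε := ε
      μ := fun v => if v ∈ V then μ v else 0
      ν := fun w => if w ∈ W then ν w else 0
      r := r
      σ := σ
      u₀ := u₀
      P := P
      big := fun p => N ≤ p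
      G := G
      hε := hε
      hε' := hε'
      hG := hG
      hμ := fun v => by split_ifs <;> simp [hμ]
      hν := fun v => by split_ifs <;> simp [hν]
      hu₀ := hu₀
      hr := hr0
      hr1 := hr1
      hσ := hσ0
      hbig := fun p _ hp => by
        have h2 : 2 ≤ p := hN2.trans hp
        simp only [hr, hσ, if_pos h2, if_pos hp]
        exact hbig p hp }
  have hbaseD : ∀ i j V' W' u, D.Ok ∅ i j V' W' u → Rich D.b D.μ D.ν u V' W' →
      Rich D.b D.ν D.μ (fun w v => u v w) W' V' →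
      mass D.μ D.ν u V' W' ≤ D.G * bias D.r D.P i j * D.scale V' W' := by
    intro i j V' W' u hok rV rW
    have hokc := hok.1
    set S : Shape := ⟨P, hPp, i, j⟩ with hS
    have hsub : ∀ {μ' ν' : ℕ → ℝ} {u' : ℕ → ℕ → ℝ} {V1 W1 A0 B0 : Finset ℕ},
        Rich D.b (fun v => if v ∈ A0 then μ' v else 0) (fun v => if v ∈ B0 then ν' v else 0) u' V1 W1 →
        Rich D.b μ' ν' u' (V1 ∩ A0) (W1 ∩ B0) := by
      intro μ' ν' u' V1 W1 A0 B0 h T hT
      have := h T (hT.trans inter_subset_left)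
      simp only [tot_cut, mass_cut, inter_eq_left.2 (hT.trans inter_subset_right)] at this
      exact this
    have hb : bias D.r D.P i j = ((S.A' : ℝ) * (S.B' : ℝ)) ^ (-a) := by
      rw [Shape.A', Shape.B', ← bias_eq]
      refine prod_congr rfl fun p hp => ?_
      show r p ^ _ = _
      simp only [hr, if_pos (hPp p hp).two_le]
      rfl
    rw [hb, Data.scale, tot_cut, tot_cut, mass_cut]
    refine hbase S _ _ u (fun v hv => ?_) (fun w hw => ?_) (fun v hv w hw hu q _ he => ?_)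
      (fun v w => (hok.2 v w).1) (fun v hv w hw => ?_) (hsub rV) (hsub rW)
    · obtain ⟨hv', hvV⟩ := mem_inter.1 hv
      exact ⟨fun h => hV0 (h ▸ hvV), fun q hq => hout v (mem_union_left _ hvV) q hq,
        fun q _ hne => ((hokc q (notMem_empty q)).1 hne).1 v hv'⟩
    · obtain ⟨hw', hwW⟩ := mem_inter.1 hw
      exact ⟨fun h => hW0 (h ▸ hwW), fun q hq => hout w (mem_union_right _ hwW) q hq,
        fun q _ hne => ((hokc q (notMem_empty q)).1 (fun he => hne he.symm)).2 w hw'⟩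
    · exact (hokc q (notMem_empty q)).2 he v (mem_inter.1 hv).1 w (mem_inter.1 hw).1 hu
    · refine ((hok.2 v w).2).trans (mul_le_mul_of_nonneg_left ?_ (hu₀ v w))
      show pw σ (P \ ∅) v w ≤ _
      rw [sdiff_empty]
      refine pw_le_wt hσ0 (fun p _ => ?_) (fun h => hV0 (h ▸ (mem_inter.1 hv).2))
        (fun h => hW0 (h ▸ (mem_inter.1 hw).2))
      simp only [hσ]; split_ifs
      · exact le_rfl
      · exact Real.rpow_nonneg (Nat.cast_nonneg _) _
  have hroot : D.Ok P (fun _ => 0) (fun _ => 0) V W u₀ := by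
    refine ⟨fun q hq => ⟨fun h => absurd rfl h, fun _ v hv _ _ _ => Or.inl ?_⟩, fun v w => ?_⟩
    · exact hout v (mem_union_left _ hv) q hq
    · exact ⟨hu₀ v w, by simp [D, pw]⟩
  have h := D.reduce hbaseD P Subset.rfl _ _ _ _ _ hroot
  rw [Data.Bound, Data.scale] at h
  have hb1 : bias D.r (D.P \ P) (fun _ => 0) (fun _ => 0) = 1 :=
    prod_eq_one fun p _ => by simp [Nat.dist_self]
  rw [hb1, mul_one] at h
  simp only [D, tot_cut, mass_cut, inter_self] at h
  refine h.trans (mul_le_mul_of_nonneg_right ?_ (Real.rpow_nonneg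
    (mul_nonneg (tot_nonneg hμ _) (tot_nonneg hν _)) _))
  rw [mul_comm]
  refine mul_le_mul_of_nonneg_right ?_ hG
  calc ∏ p ∈ P, D.loss p = ∏ p ∈ P.filter (fun p => p < N), D.loss p := by
        refine (prod_subset (filter_subset _ _) fun p hp hp' => ?_).symm
        simp only [mem_filter, not_and, not_lt] at hp'
        simp [Data.loss, D, hp' hp]
    _ ≤ ∏ p ∈ range N, D.loss p := prod_le_prod_of_subset_of_one_le
        (fun p hp => mem_range.2 (mem_filter.1 hp).2) (fun p _ => D.loss_nonneg p)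
        fun p _ _ => D.one_le_loss p
    _ ≤ _ := le_of_eq (prod_congr rfl fun p hp => by
        have := mem_range.1 hp
        simp [Data.loss, D, show ¬ N ≤ p by omega])

end

end Vale.Agent.P028.Gcd
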