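import Vale.Agent.P028.Gcd.Master

/-!
# The weighted GCD graph bound

Pairs with `(w/g) ψ(v) ≤ δ₁` and `(v/g) χ(w) ≤ δ₂`, weighted by a multiplicative weight of
`vw/g²`, have total mass `O((δ₁δ₂)^{1/2-ε} (μ(V)μ(W))^{1/2+ε})`.
-/

open Finset

namespace Vale.Agent.P028.Gcd

noncomputable section

/-- The natural measure `φ(q)ψ(q)/q`. -/
def msr (ψ : ℕ → ℝ) (q : ℕ) : ℝ := rho q * ψ q

lemma msr_nonneg {ψ : ℕ → ℝ} (hψ : ∀ q, 0 ≤ ψ q) (q : ℕ) : 0 ≤ msr ψ q :=
  mul_nonneg (rho_nonneg q) (hψ q)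

open Classical in
/-- The weighted indicator of a level. -/
def level (τ K δ₁ δ₂ : ℝ) (ψ χ : ℕ → ℝ) (v w : ℕ) : ℝ :=
  if (quo w v : ℝ) * ψ v ≤ δ₁ ∧ (quo v w : ℝ) * χ w ≤ δ₂ then wt τ K (quo v w * quo w v) else 0

lemma level_nonneg {τ K δ₁ δ₂ : ℝ} (hK : 0 ≤ K) (ψ χ : ℕ → ℝ) (v w : ℕ) :
    0 ≤ level τ K δ₁ δ₂ ψ χ v w := by
  unfold level; split_ifs
  · exact wt_nonneg hK _
  · exact le_rfl

lemma quo_eqs (S : Shape) {v w : ℕ} (hv : S.Mem v) (hw : S.swap.Mem w)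
    (hfr : ∀ q ∈ S.P, S.i q = S.j q → ex q v = S.i q ∨ ex q w = S.i q) :
    quo v w = S.A' * S.up v * S.down w ∧ quo w v = S.B' * S.up w * S.down v := by
  refine ⟨S.quotient_eq hv hw hfr, ?_⟩
  have h := S.swap.quotient_eq hw hv fun q hq he => by
    have he' : S.i q = S.j q := he.symm
    exact (hfr q hq he').symm.imp (fun h => h.trans he') fun h => h.trans he'
  rwa [S.swap_A', S.swap_up, S.swap_down] at h

lemma wt_quo_le {τ L : ℝ} (hL : 0 ≤ L) (S : Shape) {v w : ℕ} (hv : S.Mem v) (hw : S.swap.Mem w)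
    (hfr : ∀ q ∈ S.P, S.i q = S.j q → ex q v = S.i q ∨ ex q w = S.i q) :
    wt τ L (quo v w * quo w v) ≤ wt τ L S.A' * wt τ L S.B' *
      (wt τ L (S.up v) * wt τ L (S.down v)) * (wt τ L (S.up w) * wt τ L (S.down w)) := by
  obtain ⟨e1, e2⟩ := quo_eqs S hv hw hfr
  rw [e1, e2]
  have a := S.A'_pos.ne'
  have b := (S.up_pos v).ne'
  have c := (S.down_pos w).ne'
  have d := S.B'_pos.ne'
  have e := (S.up_pos w).ne'
  have f := (S.down_pos v).ne'
  have n := fun k : ℕ => wt_nonneg (τ := τ) hL k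
  calc wt τ L (S.A' * S.up v * S.down w * (S.B' * S.up w * S.down v))
      ≤ wt τ L (S.A' * S.up v * S.down w) * wt τ L (S.B' * S.up w * S.down v) :=
        wt_mul_le hL (by positivity) (by positivity)
    _ ≤ (wt τ L S.A' * wt τ L (S.up v) * wt τ L (S.down w)) *
        (wt τ L S.B' * wt τ L (S.up w) * wt τ L (S.down v)) := by
        refine mul_le_mul ?_ ?_ (n _) (mul_nonneg (mul_nonneg (n _) (n _)) (n _))
        · exact (wt_mul_le hL (mul_ne_zero a b) c).trans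
            (mul_le_mul_of_nonneg_right (wt_mul_le hL a b) (n _))
        · exact (wt_mul_le hL (mul_ne_zero d e) f).trans
            (mul_le_mul_of_nonneg_right (wt_mul_le hL d e) (n _))
    _ = _ := by ring

/-- One side of the product of two anchors. -/
lemma side_sum {τ L : ℝ} (hτ : 0 < τ) (hL : 0 ≤ L) (S : Shape) (V : Finset ℕ)
    (ψ : ℕ → ℝ) (hψ : ∀ q, 0 ≤ ψ q) (δ : ℝ) (hδ : 0 ≤ δ) (w : ℕ) (f : ℕ → ℝ)
    (hV : ∀ v ∈ V, S.Mem v) (Y : ℝ) (hY : 0 ≤ Y)
    (hscore : ∀ v ∈ V, (S.up v : ℝ) ≤ Y * (wt τ L (S.up v) * wt τ L (S.down v)))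
    (hf : ∀ v ∈ V, f v = 0 ∨ ((S.B' : ℝ) * S.up w * S.down v * ψ v ≤ δ ∧
      f v ≤ wt τ L S.A' * wt τ L S.B' *
        (wt τ L (S.up v) * wt τ L (S.down v)) * (wt τ L (S.up w) * wt τ L (S.down w)))) :
    ∑ v ∈ V, msr ψ v * f v ≤ δ / ((S.B' : ℝ) * S.up w) *
      (wt τ L S.A' * wt τ L S.B' * (wt τ L (S.up w) * wt τ L (S.down w))) *
      (4 * wtC τ ((1 + L) ^ 3 - 1) * wtC τ ((1 + L) ^ 2 - 1) * Y) := by
  classical
  have n := fun k : ℕ => wt_nonneg (τ := τ) hL k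
  set c := δ / ((S.B' : ℝ) * S.up w) *
      (wt τ L S.A' * wt τ L S.B' * (wt τ L (S.up w) * wt τ L (S.down w))) with hc
  have hBn : (0 : ℝ) < (S.B' : ℝ) * S.up w := by
    have := S.B'_pos; have := S.up_pos w; positivity
  have hc0 : 0 ≤ c := mul_nonneg (div_nonneg hδ hBn.le)
    (mul_nonneg (mul_nonneg (n _) (n _)) (mul_nonneg (n _) (n _)))
  have hterm : ∀ v ∈ V, msr ψ v * f v ≤ c * ((Nat.totient (S.A / S.down v) : ℝ) / S.A *
      (wt τ L (S.down v) * wt τ L (S.up v))) := by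
    intro v hv
    rcases hf v hv with h | ⟨h1, h2⟩
    · rw [h, mul_zero]
      exact mul_nonneg hc0 (mul_nonneg (div_nonneg (Nat.cast_nonneg _) (Nat.cast_nonneg _))
        (mul_nonneg (n _) (n _)))
    · have hs : (0 : ℝ) < S.down v := by exact_mod_cast S.down_pos v
      have h3 : msr ψ v ≤ δ / ((S.B' : ℝ) * S.up w) * ((Nat.totient (S.A / S.down v) : ℝ) / S.A) := by
        calc msr ψ v ≤ rho v * (δ / ((S.B' : ℝ) * S.up w * S.down v)) :=
              mul_le_mul_of_nonneg_left ((le_div_iff₀ (by positivity)).2 (by linarith)) (rho_nonneg v)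
          _ = δ / ((S.B' : ℝ) * S.up w) * (rho v / S.down v) := by field_simp
          _ ≤ _ := mul_le_mul_of_nonneg_left (S.rho_div_le (hV v hv)) (div_nonneg hδ hBn.le)
      refine (mul_le_mul_of_nonneg_left h2 (msr_nonneg hψ v)).trans
        ((mul_le_mul_of_nonneg_right h3 (mul_nonneg (mul_nonneg (mul_nonneg (n _) (n _))
          (mul_nonneg (n _) (n _))) (mul_nonneg (n _) (n _)))).trans (le_of_eq ?_))
      rw [hc]; ring
  have hmaps : ∀ v ∈ V, S.down v ∈ S.A.divisors := fun v _ =>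
    Nat.mem_divisors.2 ⟨S.down_dvd v, S.A_pos.ne'⟩
  have hL2 : 0 ≤ (1 + L) ^ 2 - 1 := by nlinarith
  refine (sum_le_sum hterm).trans ?_
  rw [← mul_sum]
  refine mul_le_mul_of_nonneg_left ?_ hc0
  rw [← sum_fiberwise_of_maps_to hmaps]
  calc ∑ s ∈ S.A.divisors, ∑ v ∈ V.filter (fun v => S.down v = s),
        (Nat.totient (S.A / S.down v) : ℝ) / S.A * (wt τ L (S.down v) * wt τ L (S.up v))
      ≤ ∑ s ∈ S.A.divisors, (Nat.totient (S.A / s) : ℝ) / S.A *
          (wt τ ((1 + L) ^ 2 - 1) s * (4 * wtC τ ((1 + L) ^ 3 - 1) * Y)) := by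
        refine sum_le_sum fun s _ => ?_
        rw [sum_congr rfl (g := fun v => (Nat.totient (S.A / s) : ℝ) / S.A *
          (wt τ L s * wt τ L (S.up v))) fun v hv => by rw [(mem_filter.1 hv).2],
          ← mul_sum, ← mul_sum]
        refine mul_le_mul_of_nonneg_left ?_ (div_nonneg (Nat.cast_nonneg _) (Nat.cast_nonneg _))
        have himg : ∑ v ∈ V.filter (fun v => S.down v = s), wt τ L (S.up v) =
            ∑ m ∈ (V.filter (fun v => S.down v = s)).image S.up, wt τ L m := by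
          rw [sum_image]
          intro v hv v' hv' he
          exact S.pair_inj (hV v (mem_filter.1 hv).1) (hV v' (mem_filter.1 hv').1)
            ((mem_filter.1 hv).2.trans (mem_filter.1 hv').2.symm) he
        have hr := sum_wt_range_le hτ hL ((V.filter (fun v => S.down v = s)).image S.up)
          (Y * wt τ L s) (mul_nonneg hY (n _)) fun m hm => by
            obtain ⟨v, hv, rfl⟩ := mem_image.1 hm
            refine ⟨S.up_pos v, (hscore v (mem_filter.1 hv).1).trans (le_of_eq ?_)⟩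
            rw [(mem_filter.1 hv).2]; ring
        rw [himg]
        refine (mul_le_mul_of_nonneg_left hr (n s)).trans ?_
        calc wt τ L s * (4 * wtC τ ((1 + L) ^ 3 - 1) * (Y * wt τ L s))
            = wt τ L s ^ 2 * (4 * wtC τ ((1 + L) ^ 3 - 1) * Y) := by ring
          _ ≤ _ := mul_le_mul_of_nonneg_right (wt_pow_le hτ.le hL 2 s)
              (mul_nonneg (mul_nonneg (by norm_num) (wtC_pos _ _).le) hY)
    _ = (∑ s ∈ S.A.divisors, (Nat.totient (S.A / s) : ℝ) / S.A * wt τ ((1 + L) ^ 2 - 1) s) *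
          (4 * wtC τ ((1 + L) ^ 3 - 1) * Y) := by rw [sum_mul]; simp only [mul_assoc]
    _ ≤ wtC τ ((1 + L) ^ 2 - 1) * (4 * wtC τ ((1 + L) ^ 3 - 1) * Y) :=
        mul_le_mul_of_nonneg_right (sum_divisors_wt_le hτ hL2 S.A_pos)
          (mul_nonneg (mul_nonneg (by norm_num) (wtC_pos _ _).le) hY)
    _ = _ := by ring

/-- The weighted GCD graph bound. -/
theorem plain_bound {ε τ K : ℝ} (hε : 0 < ε) (hε' : ε ≤ 1 / 4) (hτ : 0 < τ) (hK : 0 ≤ K) :
    ∃ C : ℝ, 0 < C ∧ ∀ (ψ χ : ℕ → ℝ) (δ₁ δ₂ : ℝ), (∀ q, 0 ≤ ψ q) → (∀ q, 0 ≤ χ q) →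
      0 ≤ δ₁ → 0 ≤ δ₂ → ∀ V W : Finset ℕ, 0 ∉ V → 0 ∉ W →
      mass (msr ψ) (msr χ) (level τ K δ₁ δ₂ ψ χ) V W ≤
        C * (δ₁ * δ₂) ^ (1/2 - ε) * (tot (msr ψ) V * tot (msr χ) W) ^ (1/2 + ε) := by
  classical
  obtain ⟨C, hC, hmaster⟩ := master hε hε'
  set τ' := min τ (ε / 2) with hτ'def
  have hτ' : 0 < τ' := lt_min hτ (by linarith)
  set K' := K + 1 + K * 1 with hK'
  set L := (1 + K') ^ 2 - 1 with hLdef
  have hK'0 : 0 ≤ K' := by rw [hK']; linarith
  have hL : 0 ≤ L := by rw [hLdef]; nlinarith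
  set Cs := 4 * wtC τ' ((1 + L) ^ 3 - 1) * wtC τ' ((1 + L) ^ 2 - 1) with hCs
  have hCs0 : 0 < Cs := mul_pos (mul_pos (by norm_num) (wtC_pos _ _)) (wtC_pos _ _)
  have hL2 : 0 ≤ (1 + L) ^ 2 - 1 := by nlinarith
  obtain ⟨Cp, hCp, hwp⟩ := exists_wt_le_rpow hτ' hL2 (show (0 : ℝ) < 1 / 2 by norm_num)
  set Z := Cs ^ 2 * Cp ^ 2 with hZ
  refine ⟨C * (2 * Z ^ (1/2 - ε)), mul_pos hC (mul_pos two_pos (Real.rpow_pos_of_pos
    (by positivity) _)), ?_⟩
  intro ψ χ δ₁ δ₂ hψ hχ hδ₁ hδ₂ V W hV hW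
  have key : BaseBound ε (2 * Z ^ (1/2 - ε) * (δ₁ * δ₂) ^ (1/2 - ε)) (msr ψ) (msr χ)
      (level τ K δ₁ δ₂ ψ χ) := by
    intro S V W u hSV hSW hfr hu hub rV rW
    have n := fun k : ℕ => wt_nonneg (τ := τ') hL k
    set V1 := V.filter fun v => 0 < msr ψ v with hV1
    set W1 := W.filter fun w => 0 < msr χ w with hW1
    have hrhs : 0 ≤ 2 * Z ^ (1/2 - ε) * (δ₁ * δ₂) ^ (1/2 - ε) *
        ((S.A' : ℝ) * S.B') ^ (-((1/2 - ε) / 2)) *
        (tot (msr ψ) V * tot (msr χ) W) ^ (1/2 + ε) := by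
      have := tot_nonneg (msr_nonneg hψ) V
      have := tot_nonneg (msr_nonneg hχ) W
      positivity
    by_cases hm0 : mass (msr ψ) (msr χ) u V W = 0
    · rw [hm0]; exact hrhs
    have hVne : V1.Nonempty := by
      by_contra h
      refine hm0 (sum_eq_zero fun v hv => sum_eq_zero fun w _ => ?_)
      have : msr ψ v = 0 := le_antisymm (not_lt.1 fun hp => h ⟨v, mem_filter.2 ⟨hv, hp⟩⟩)
        (msr_nonneg hψ v)
      rw [this, zero_mul, zero_mul]
    have hWne : W1.Nonempty := by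
      by_contra h
      refine hm0 (sum_eq_zero fun v _ => sum_eq_zero fun w hw => ?_)
      have : msr χ w = 0 := le_antisymm (not_lt.1 fun hp => h ⟨w, mem_filter.2 ⟨hw, hp⟩⟩)
        (msr_nonneg hχ w)
      rw [this, mul_zero, zero_mul]
    set sc := fun v => (S.up v : ℝ) / (wt τ' L (S.up v) * wt τ' L (S.down v)) with hsc
    have wpos : ∀ v, 0 < wt τ' L (S.up v) * wt τ' L (S.down v) := fun v =>
      mul_pos (lt_of_lt_of_le one_pos (one_le_wt hL _)) (lt_of_lt_of_le one_pos (one_le_wt hL _))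
    have scpos : ∀ v, 0 < sc v := fun v => div_pos (by exact_mod_cast S.up_pos v) (wpos v)
    obtain ⟨v0, hv0, hv0max⟩ := exists_max_image V1 sc hVne
    obtain ⟨w0, hw0, hw0max⟩ := exists_max_image W1 sc hWne
    set q := 1 / (1 - 2 * ε) with hq
    have hq0 : 0 < q := by rw [hq]; exact div_pos one_pos (by linarith)
    have hq2 : q ≤ 2 := by rw [hq, div_le_iff₀ (by linarith)]; linarith
    -- the weight of an edge after raising to the power q
    have hedge : ∀ v ∈ V, ∀ w ∈ W, u v w = 0 ∨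
        ((S.B' : ℝ) * S.up w * S.down v * ψ v ≤ δ₁ ∧ (S.A' : ℝ) * S.up v * S.down w * χ w ≤ δ₂ ∧
          u v w ^ q ≤ wt τ' L S.A' * wt τ' L S.B' *
            (wt τ' L (S.up v) * wt τ' L (S.down v)) * (wt τ' L (S.up w) * wt τ' L (S.down w))) := by
      intro v hv w hw
      by_cases hu0 : u v w = 0
      · exact Or.inl hu0
      obtain ⟨e1, e2⟩ := quo_eqs S (hSV v hv) (hSW w hw) (hfr v hv w hw hu0)
      have h1 := hub v hv w hw
      unfold level at h1
      split_ifs at h1 with hc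
      · refine Or.inr ⟨?_, ?_, ?_⟩
        · have := hc.1; rw [e2] at this; push_cast at this; linarith
        · have := hc.2; rw [e1] at this; push_cast at this; linarith
        · have hxy := wt_quo_le (τ := τ') hL S (hSV v hv) (hSW w hw) (hfr v hv w hw hu0)
          refine le_trans ?_ hxy
          set xy := quo v w * quo w v
          have h2 : u v w ≤ wt τ' K' xy := by
            refine h1.trans ((mul_le_mul (wt_anti hK (show τ' ≤ τ from min_le_left _ _) _)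
              (wt_anti zero_le_one (show τ' ≤ ε / 2 from min_le_right _ _) _) (wt_nonneg zero_le_one _)
              (wt_nonneg hK _)).trans ?_)
            exact wt_prod_le hτ'.le hK zero_le_one _
          calc u v w ^ q ≤ wt τ' K' xy ^ q := Real.rpow_le_rpow (hu v w) h2 hq0.le
            _ ≤ wt τ' K' xy ^ (2 : ℝ) := Real.rpow_le_rpow_of_exponent_le (one_le_wt hK'0 _) hq2
            _ = wt τ' K' xy ^ 2 := Real.rpow_natCast _ 2
            _ ≤ _ := wt_pow_le hτ'.le hK'0 2 _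
      · rw [zero_mul] at h1; exact absurd (le_antisymm h1 (hu v w)) hu0
    set Yw := ∑ v ∈ V, msr ψ v * u v w0 ^ q
    set Yv := ∑ w ∈ W, msr χ w * u v0 w ^ q
    have hw0' := (mem_filter.1 hw0).1
    have hv0' := (mem_filter.1 hv0).1
    have hYw : Yw ≤ δ₁ / ((S.B' : ℝ) * S.up w0) *
        (wt τ' L S.A' * wt τ' L S.B' * (wt τ' L (S.up w0) * wt τ' L (S.down w0))) *
        (Cs * sc v0) := by
      have hsame : Yw = ∑ v ∈ V1, msr ψ v * u v w0 ^ q := by
        refine (sum_subset (filter_subset _ _) fun v hv hv1 => ?_).symm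
        have : msr ψ v = 0 := le_antisymm (not_lt.1 fun hp => hv1 (mem_filter.2 ⟨hv, hp⟩))
          (msr_nonneg hψ v)
        rw [this, zero_mul]
      rw [hsame]
      refine side_sum hτ' hL S V1 ψ hψ δ₁ hδ₁ w0 _ (fun v hv => hSV v (mem_filter.1 hv).1) (sc v0)
        (scpos v0).le (fun v hv => ?_) fun v hv => ?_
      · exact (div_le_iff₀ (wpos v)).1 (hv0max v hv)
      · rcases hedge v (mem_filter.1 hv).1 w0 hw0' with h | ⟨h1, _, h3⟩
        · left; rw [h, Real.zero_rpow hq0.ne']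
        · exact Or.inr ⟨h1, h3⟩
    have hYv : Yv ≤ δ₂ / ((S.A' : ℝ) * S.up v0) *
        (wt τ' L S.B' * wt τ' L S.A' * (wt τ' L (S.up v0) * wt τ' L (S.down v0))) *
        (Cs * sc w0) := by
      have hsame : Yv = ∑ w ∈ W1, msr χ w * u v0 w ^ q := by
        refine (sum_subset (filter_subset _ _) fun w hw hw1 => ?_).symm
        have : msr χ w = 0 := le_antisymm (not_lt.1 fun hp => hw1 (mem_filter.2 ⟨hw, hp⟩))
          (msr_nonneg hχ w)
        rw [this, zero_mul]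
      rw [hsame]
      have := side_sum hτ' hL S.swap W1 χ hχ δ₂ hδ₂ v0 (fun w => u v0 w ^ q)
        (fun w hw => hSW w (mem_filter.1 hw).1) (sc w0) (scpos w0).le (fun w hw => ?_)
        fun w hw => ?_
      · simpa only [S.swap_A', S.swap_B', S.swap_up, S.swap_down] using this
      · simp only [S.swap_up, S.swap_down]
        exact (div_le_iff₀ (wpos w)).1 (hw0max w hw)
      · rcases hedge v0 hv0' w (mem_filter.1 hw).1 with h | ⟨_, h2, h3⟩
        · left; rw [h, Real.zero_rpow hq0.ne']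
        · refine Or.inr ⟨?_, ?_⟩
          · simp only [S.swap_B', S.swap_up, S.swap_down]; linarith
          · simp only [S.swap_A', S.swap_B', S.swap_up, S.swap_down]; linarith
    have hA : (0 : ℝ) < S.A' := by exact_mod_cast S.A'_pos
    have hB : (0 : ℝ) < S.B' := by exact_mod_cast S.B'_pos
    have hm : (0 : ℝ) < S.up v0 := by exact_mod_cast S.up_pos v0
    have hn : (0 : ℝ) < S.up w0 := by exact_mod_cast S.up_pos w0
    have hX : Yv * Yw ≤ Z * (δ₁ * δ₂) * ((S.A' : ℝ) * S.B') ^ (-(1 / 2 : ℝ)) := by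
      have hYw0 : 0 ≤ Yw := sum_nonneg fun v _ =>
        mul_nonneg (msr_nonneg hψ v) (Real.rpow_nonneg (hu _ _) _)
      refine (mul_le_mul hYv hYw hYw0 (le_trans (sum_nonneg fun w _ =>
        mul_nonneg (msr_nonneg hχ w) (Real.rpow_nonneg (hu _ _) _)) hYv)).trans ?_
      have e : δ₂ / ((S.A' : ℝ) * S.up v0) *
          (wt τ' L S.B' * wt τ' L S.A' * (wt τ' L (S.up v0) * wt τ' L (S.down v0))) *
          (Cs * sc w0) * (δ₁ / ((S.B' : ℝ) * S.up w0) *
          (wt τ' L S.A' * wt τ' L S.B' * (wt τ' L (S.up w0) * wt τ' L (S.down w0))) *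
          (Cs * sc v0)) = Cs ^ 2 * (δ₁ * δ₂) / ((S.A' : ℝ) * S.B') *
            (wt τ' L S.A' ^ 2 * wt τ' L S.B' ^ 2) := by
        simp only [hsc]
        have n' := fun k : ℕ => (lt_of_lt_of_le one_pos (one_le_wt (τ := τ') hL k)).ne'
        have := n' (S.up v0)
        have := n' (S.down v0)
        have := n' (S.up w0)
        have := n' (S.down w0)
        field_simp
      rw [e]
      have hA2 : wt τ' L S.A' ^ 2 ≤ Cp * (S.A' : ℝ) ^ (1 / 2 : ℝ) :=
        (wt_pow_le hτ'.le hL 2 _).trans (hwp _ S.A'_pos.ne')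
      have hB2 : wt τ' L S.B' ^ 2 ≤ Cp * (S.B' : ℝ) ^ (1 / 2 : ℝ) :=
        (wt_pow_le hτ'.le hL 2 _).trans (hwp _ S.B'_pos.ne')
      refine (mul_le_mul_of_nonneg_left (mul_le_mul hA2 hB2 (sq_nonneg _) (le_trans (sq_nonneg _)
        hA2)) (by positivity)).trans (le_of_eq ?_)
      rw [Real.rpow_neg (mul_pos hA hB).le, Real.mul_rpow hA.le hB.le, hZ,
        ← Real.sqrt_eq_rpow, ← Real.sqrt_eq_rpow]
      have e1 := Real.mul_self_sqrt hA.le
      have e2 := Real.mul_self_sqrt hB.le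
      have := (Real.sqrt_pos.2 hA).ne'
      have := (Real.sqrt_pos.2 hB).ne'
      field_simp
      rw [sq, sq, e1, e2]
    refine (interp hε.le hε' (msr_nonneg hψ) (msr_nonneg hχ) hu rV rW hv0' (mem_filter.1 hv0).2
      hw0' (mem_filter.1 hw0).2 hX).trans (le_of_eq ?_)
    rw [Real.mul_rpow (by positivity) (by positivity), Real.mul_rpow (by positivity)
      (mul_nonneg hδ₁ hδ₂), ← Real.rpow_mul (mul_pos hA hB).le]
    ring_nf
  have h := hmaster _ (msr ψ) (msr χ) (level τ K δ₁ δ₂ ψ χ) (by positivity) (msr_nonneg hψ)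
    (msr_nonneg hχ) (level_nonneg hK ψ χ) key V W hV hW
  refine h.trans (le_of_eq ?_)
  ring

end

end Vale.Agent.P028.Gcd
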