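import Vale.Agent.P028.Gcd.Core

/-!
# One prime of the induction, and the resulting reduction
-/

open Finset

namespace Vale.Agent.P028.Gcd

noncomputable section

namespace Data

variable (D : Data)

/-- The inductive hypothesis one prime further. -/
def Next (U : Finset ℕ) (p : ℕ) : Prop :=
  ∀ i j V W u, D.Ok (U.erase p) i j V W u → D.Bound (U.erase p) i j V W u

/-- Bound for a child of exponents `a, c`. -/
lemma child_bound {U : Finset ℕ} {p : ℕ} (hp : p ∈ U) (hpP : p ∈ D.P) (hnext : D.Next U p)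
    {i j : ℕ → ℕ} {V W : Finset ℕ} {u : ℕ → ℕ → ℝ} (h : D.Ok U i j V W u) (a c : ℕ) :
    D.loss p * mass D.μ D.ν u (fib p V a) (fib p W c) ≤
      D.G * (∏ q ∈ U, D.loss q) * bias D.r (D.P \ U) i j * D.r p ^ Nat.dist a c *
        ((tot D.μ (fib p V a)) ^ D.b * (tot D.ν (fib p W c)) ^ D.b) := by
  have hσ : ∀ v w, 1 ≤ (if ex p v = ex p w then (1 : ℝ) else 1 + D.σ p) := fun v w => by
    split_ifs
    · exact le_rfl
    · linarith [D.hσ p]
  have := hnext _ _ _ _ _ (D.child_ok h hp hσ hpP a c)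
  rw [Bound, D.bias_update hp hpP, D.scale_eq_mul] at this
  rw [← mul_prod_erase U D.loss hp]
  calc D.loss p * mass D.μ D.ν u (fib p V a) (fib p W c)
      ≤ D.loss p * (D.G * (∏ q ∈ U.erase p, D.loss q) * (D.r p ^ Nat.dist a c *
          bias D.r (D.P \ U) i j) * (tot D.μ (fib p V a) ^ D.b * tot D.ν (fib p W c) ^ D.b)) :=
        mul_le_mul_of_nonneg_left this (D.loss_nonneg p)
    _ = _ := by ring

/-- A small prime only costs its loss factor. -/
lemma small_step {U : Finset ℕ} {p : ℕ} (hp : p ∈ U) (hpP : p ∈ D.P) (hs : ¬ D.big p)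
    (hnext : D.Next U p) {i j : ℕ → ℕ} {V W : Finset ℕ} {u : ℕ → ℕ → ℝ}
    (h : D.Ok U i j V W u) : D.Bound U i j V W u := by
  classical
  set I := V.image (ex p) ∪ W.image (ex p) with hI
  have hV : ∀ v ∈ V, ex p v ∈ I := fun v hv => mem_union_left _ (mem_image_of_mem _ hv)
  have hW : ∀ w ∈ W, ex p w ∈ I := fun v hv => mem_union_right _ (mem_image_of_mem _ hv)
  set H := D.G * (∏ q ∈ U, D.loss q) * bias D.r (D.P \ U) i j with hH
  have hH0 : 0 ≤ H := D.H_nonneg U i j
  have hloss : D.loss p = (1 + D.r p) / (1 - D.r p) := by simp [loss, hs]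
  set A := fun a => tot D.μ (fib p V a) with hA
  set B := fun a => tot D.ν (fib p W a) with hB
  have hA0 : ∀ a, 0 ≤ A a := fun a => tot_nonneg D.hμ _
  have hB0 : ∀ a, 0 ≤ B a := fun a => tot_nonneg D.hν _
  rcases (tot_nonneg D.hμ V).eq_or_lt with h0 | hμ0
  · rw [Bound, mass_eq_zero_of_tot D.hμ V W h0.symm]
    exact mul_nonneg hH0 (D.scale_nonneg V W)
  rcases (tot_nonneg D.hν W).eq_or_lt with h0 | hν0
  · rw [Bound, ← mass_flip, mass_eq_zero_of_tot D.hν W V h0.symm]
    exact mul_nonneg hH0 (D.scale_nonneg V W)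
  set α := fun a => A a / tot D.μ V with hα
  set β := fun a => B a / tot D.ν W with hβ
  have hα0 : ∀ a, 0 ≤ α a := fun a => div_nonneg (hA0 a) hμ0.le
  have hβ0 : ∀ a, 0 ≤ β a := fun a => div_nonneg (hB0 a) hν0.le
  have hα1 : ∑ a ∈ I, α a ≤ 1 := by
    rw [hα, ← sum_div, hA, tot_fib _ p V I hV, div_self hμ0.ne']
  have hβ1 : ∑ a ∈ I, β a ≤ 1 := by
    rw [hβ, ← sum_div, hB, tot_fib _ p W I hW, div_self hν0.ne']
  have hS := schur_rpow I I (fun a c => D.r p ^ Nat.dist a c) α β D.b 1 1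
    (fun a c => pow_nonneg (D.hr p) _) (fun a _ => geom_row (D.hr p) (D.hr1 p) I a)
    (fun c _ => by simpa [Nat.dist_comm] using geom_row (D.hr p) (D.hr1 p) I c)
    hα0 hβ0 D.one_le_two_b (hloss ▸ D.loss_nonneg p) hα1 hβ1
  rw [Real.one_rpow, mul_div_assoc, show ((1 : ℝ) + 1) / 2 = 1 by norm_num, mul_one, ← hloss] at hS
  have hsum : D.loss p * mass D.μ D.ν u V W ≤ D.loss p * (H * D.scale V W) := by
    rw [D.mass_fib u p V W I I hV hW, mul_sum]
    calc ∑ a ∈ I, D.loss p * ∑ c ∈ I, mass D.μ D.ν u (fib p V a) (fib p W c)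
        ≤ ∑ a ∈ I, ∑ c ∈ I, H * D.scale V W *
            (D.r p ^ Nat.dist a c * (α a ^ D.b * β c ^ D.b)) := by
          refine sum_le_sum fun a _ => ?_
          rw [mul_sum]
          refine sum_le_sum fun c _ => ?_
          refine (D.child_bound hp hpP hnext h a c).trans (le_of_eq ?_)
          rw [D.scale_eq_mul]
          simp only [hα, hβ, hA, hB]
          rw [Real.div_rpow (tot_nonneg D.hμ _) hμ0.le,
            Real.div_rpow (tot_nonneg D.hν _) hν0.le]
          have := (Real.rpow_pos_of_pos hμ0 D.b).ne'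
          have := (Real.rpow_pos_of_pos hν0 D.b).ne'
          field_simp
          ring
      _ = H * D.scale V W * ∑ a ∈ I, ∑ c ∈ I, D.r p ^ Nat.dist a c * (α a ^ D.b * β c ^ D.b) := by
          simp only [mul_sum]
      _ ≤ H * D.scale V W * D.loss p :=
          mul_le_mul_of_nonneg_left hS (mul_nonneg hH0 (D.scale_nonneg V W))
      _ = _ := mul_comm _ _
  exact le_of_mul_le_mul_left hsum (lt_of_lt_of_le one_pos (D.one_le_loss p))

end Data

end

end Vale.Agent.P028.Gcd
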